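import Crest.Agent.X262.Ult.Hyc

/-!
# Row 262, road B (helper84): the hypotheses of the abstract theorem (GC)

`Q` is a hypercommutative algebra, `h j` the divisor classes of the factors; `D = h jA`,
`G = h jG`, `λ = h jS`.  Only degrees `d` with `d jS = 0` and insertions in `A` are used.
-/

set_option autoImplicit false

namespace Crest.Agent.X262.Gc84

open Crest.Agent.X262.Ult

variable {k : Type*} [Field k] {ι : Type} [DecidableEq ι] {H : Type*} [CommRing H] [Algebra k H]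

/-- all insertions lie in `A` -/
def In (A : Submodule k H) (l : Multiset H) : Prop := ∀ a ∈ l, a ∈ A

variable (k) in
/-- the span of the `λ ^ i * e` and `λ ^ i * (G * e)` -/
def Me (lam G e : H) : Submodule k H :=
  Submodule.span k {x | ∃ i : ℕ, x = lam ^ i * e ∨ x = lam ^ i * (G * e)}

variable (k) in
/-- the sum of the `Me e`, `e ∈ E` -/
def MM (lam G : H) (E : Set H) : Submodule k H := ⨆ e ∈ E, Me k lam G e

/-- `u` commutes with the operation `x ↦ op d (x, l)` at the vector `x` -/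
def Cm (Q : Hyc k ι H) (u : H →ₗ[k] H) (d : ι →₀ ℕ) (l : Multiset H) (x : H) : Prop :=
  u (Q.op d (x ::ₘ l)) = Q.op d (u x ::ₘ l)

/-- the hypotheses of (GC); `u'` is the adjoint of `u` -/
structure Hyp (Q : Hyc k ι H) (β : H →ₗ[k] H →ₗ[k] k) (A : Submodule k H) (h : ι → H)
    (jA jG jS : ι) (E : Set H) (u u' : H →ₗ[k] H) : Prop where
  symm : ∀ x y, β x y = β y x
  nondeg : ∀ x, (∀ y, β x y = 0) → x = 0
  adj : ∀ d l x y, l ≠ 0 → β (Q.op d (x ::ₘ l)) y = β x (Q.op d (y ::ₘ l))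
  dv : ∀ j, Q.IsDiv (h j) fun d => (d j : k)
  hA : ∀ j, h j ∈ A
  /-- Hodge type -/
  opA : ∀ d l, In A l → 2 ≤ Multiset.card l → Q.op d l ∈ A
  nilD : IsNilpotent (h jA)
  nilS : IsNilpotent (h jS)
  GG : h jG * h jG = h jS * h jG
  DE : ∀ e ∈ E, h jA * e = 0
  uadj : ∀ x y, β (u x) y = β x (u' y)
  rng : ∀ x, u x ∈ MM k (h jS) (h jG) E
  rng' : ∀ x, u' x ∈ MM k (h jS) (h jG) E
  /-- `H = M + M^⊥` -/
  top : ∀ x, ∃ y ∈ MM k (h jS) (h jG) E, ∀ z ∈ MM k (h jS) (h jG) E, β (x - y) z = 0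
  /-- (V) `u` commutes with the vertical operations -/
  vert : ∀ d l, d jA = 0 → d jS = 0 → In A l → l ≠ 0 → ∀ x, Cm Q u d l x
  /-- (V) the vertical operations with an insertion `G` keep `Me e` -/
  keep : ∀ e ∈ E, ∀ d l, d jA = 0 → d jS = 0 → In A l →
    Q.op d (e ::ₘ h jG ::ₘ l) ∈ Me k (h jS) (h jG) e ∧
      Q.op d ((h jG * e) ::ₘ h jG ::ₘ l) ∈ Me k (h jS) (h jG) e
  /-- the number `l` -/
  num : ∀ e ∈ E, ∃ d : ι →₀ ℕ, d jA = 0 ∧ d jS = 0 ∧ d jG = 1 ∧ ∃ y t : k, y ≠ 0 ∧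
    ∃ z ∈ Me k (h jS) (h jG) e,
      Q.op d ((h jG * e) ::ₘ h jG ::ₘ 0) = y • e + t • (h jG * e) + h jS * z
  /-- (END) -/
  fin : ∀ e ∈ E, ∀ d l, d jG = 0 → d jS = 0 → In A l → l ≠ 0 → Cm Q u d l (h jG * e)
  fin' : ∀ e ∈ E, ∀ d l, d jG = 0 → d jS = 0 → In A l → l ≠ 0 → Cm Q u' d l (h jG * e)

/-- the conclusion of (GC) -/
def Out (Q : Hyc k ι H) (A : Submodule k H) (jS : ι) (u : H →ₗ[k] H) : Prop :=
  ∀ d l, d jS = 0 → In A l → l ≠ 0 → ∀ x, Cm Q u d l x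

end Crest.Agent.X262.Gc84
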