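import Mathlib

/-!
# Row 262, road B (helper84): convolution sums and the recursion in the `G`-degree
-/

set_option autoImplicit false

namespace Crest.Agent.X262.Gc84

open Finset.HasAntidiagonal

variable {ι : Type} [DecidableEq ι] {A : Type*}

/-- the sum over all splittings of a degree and of a multiset of insertions -/
noncomputable def SS {X : Type*} [AddCommMonoid X] (d : ι →₀ ℕ) (s : Multiset A)
    (F : (ι →₀ ℕ) → Multiset A → (ι →₀ ℕ) → Multiset A → X) : X :=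
  ∑ e ∈ antidiagonal d, ((Multiset.antidiagonal s).map fun q => F e.1 q.1 e.2 q.2).sum

section SS

variable {X Y : Type*} [AddCommMonoid X] [AddCommMonoid Y] {d : ι →₀ ℕ} {s : Multiset A}
  {F G : (ι →₀ ℕ) → Multiset A → (ι →₀ ℕ) → Multiset A → X}

theorem SS_congr (h : ∀ d₁ s₁ d₂ s₂, d₁ + d₂ = d → s₁ + s₂ = s → F d₁ s₁ d₂ s₂ = G d₁ s₁ d₂ s₂) :
    SS d s F = SS d s G := by
  refine Finset.sum_congr rfl fun e he => congrArg Multiset.sum (Multiset.map_congr rfl fun q hq => ?_)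
  exact h _ _ _ _ (mem_antidiagonal.1 he) (Multiset.mem_antidiagonal.1 hq)

theorem SS_eq_zero (h : ∀ d₁ s₁ d₂ s₂, d₁ + d₂ = d → s₁ + s₂ = s → F d₁ s₁ d₂ s₂ = 0) :
    SS d s F = 0 := by
  rw [SS_congr (G := fun _ _ _ _ => 0) h]
  simp [SS]

theorem SS_add : SS d s (fun d₁ s₁ d₂ s₂ => F d₁ s₁ d₂ s₂ + G d₁ s₁ d₂ s₂) = SS d s F + SS d s G := by
  simp only [SS, Multiset.sum_map_add, Finset.sum_add_distrib]

theorem map_SS {Φ : Type*} [FunLike Φ X Y] [AddMonoidHomClass Φ X Y] (φ : Φ) :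
    φ (SS d s F) = SS d s fun d₁ s₁ d₂ s₂ => φ (F d₁ s₁ d₂ s₂) := by
  simp only [SS, map_sum, map_multiset_sum, Multiset.map_map, Function.comp_def]

theorem smul_SS {R : Type*} [Semiring R] [Module R X] (c : R) :
    c • SS d s F = SS d s fun d₁ s₁ d₂ s₂ => c • F d₁ s₁ d₂ s₂ :=
  map_SS (DistribSMul.toAddMonoidHom X c)

theorem SS_swap : SS d s F = SS d s fun d₁ s₁ d₂ s₂ => F d₂ s₂ d₁ s₁ := by
  unfold SS
  rw [Finsupp.sum_antidiagonal_swap d fun a b =>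
    ((Multiset.antidiagonal s).map fun q => F a q.1 b q.2).sum]
  refine Finset.sum_congr rfl fun e _ => ?_
  conv_lhs => rw [← Multiset.map_swap_antidiagonal s]
  rw [Multiset.map_map]
  rfl

theorem sum_anti_left (s : Multiset A) (g : Multiset A → Multiset A → X)
    (h : ∀ s₁ s₂, s₁ + s₂ = s → s₁ ≠ 0 → g s₁ s₂ = 0) :
    ((Multiset.antidiagonal s).map fun q => g q.1 q.2).sum = g 0 s := by
  induction s using Multiset.induction_on generalizing g with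
  | empty => simp
  | cons a s ih =>
    rw [Multiset.antidiagonal_cons, Multiset.map_add, Multiset.sum_add, Multiset.map_map,
      Multiset.map_map]
    have e1 := ih (fun s₁ s₂ => g s₁ (a ::ₘ s₂)) fun s₁ s₂ h1 h2 =>
      h _ _ (by rw [Multiset.add_cons, h1]) h2
    have e2 : ((Multiset.antidiagonal s).map
        ((fun q => g q.1 q.2) ∘ Prod.map (Multiset.cons a) id)).sum = 0 := by
      refine Multiset.sum_eq_zero fun x hx => ?_
      obtain ⟨q, hq, rfl⟩ := Multiset.mem_map.1 hx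
      exact h _ _ (by
        change a ::ₘ q.1 + q.2 = _
        rw [Multiset.cons_add, Multiset.mem_antidiagonal.1 hq]) (Multiset.cons_ne_zero)
    rw [e2, add_zero]
    exact e1

theorem SS_left_ms (h : ∀ d₁ s₁ d₂ s₂, d₁ + d₂ = d → s₁ + s₂ = s → s₁ ≠ 0 → F d₁ s₁ d₂ s₂ = 0) :
    SS d s F = ∑ e ∈ antidiagonal d, F e.1 0 e.2 s :=
  Finset.sum_congr rfl fun e he => sum_anti_left s (fun s₁ s₂ => F e.1 s₁ e.2 s₂) fun _ _ h1 h2 =>
    h _ _ _ _ (mem_antidiagonal.1 he) h1 h2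

theorem SS_left (h : ∀ d₁ s₁ d₂ s₂, d₁ + d₂ = d → s₁ + s₂ = s → d₁ ≠ 0 ∨ s₁ ≠ 0 →
    F d₁ s₁ d₂ s₂ = 0) : SS d s F = F 0 0 d s := by
  rw [SS_left_ms fun _ _ _ _ h1 h2 h3 => h _ _ _ _ h1 h2 (Or.inr h3)]
  refine Finset.sum_eq_single_of_mem ((0 : ι →₀ ℕ), d) (mem_antidiagonal.2 (zero_add d))
    fun e he hne => ?_
  have h1 := mem_antidiagonal.1 he
  refine h _ _ _ _ h1 (zero_add s) (Or.inl fun h0 => hne ?_)
  rw [h0, zero_add] at h1
  exact Prod.ext h0 h1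

theorem SS_right (h : ∀ d₁ s₁ d₂ s₂, d₁ + d₂ = d → s₁ + s₂ = s → d₂ ≠ 0 ∨ s₂ ≠ 0 →
    F d₁ s₁ d₂ s₂ = 0) : SS d s F = F d s 0 0 := by
  rw [SS_swap]
  exact SS_left (F := fun d₁ s₁ d₂ s₂ => F d₂ s₂ d₁ s₁) fun _ _ _ _ h1 h2 h3 =>
    h _ _ _ _ ((add_comm _ _).trans h1) ((add_comm _ _).trans h2) h3

theorem SS_mem {S : Type*} [SetLike S X] [AddSubmonoidClass S X] {W : S}
    (h : ∀ d₁ s₁ d₂ s₂, d₁ + d₂ = d → s₁ + s₂ = s → F d₁ s₁ d₂ s₂ ∈ W) : SS d s F ∈ W := by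
  refine sum_mem fun e he => multiset_sum_mem _ fun x hx => ?_
  obtain ⟨q, hq, rfl⟩ := Multiset.mem_map.1 hx
  exact h _ _ _ _ (mem_antidiagonal.1 he) (Multiset.mem_antidiagonal.1 hq)

end SS

variable {k : Type*} [Field k] {V : Type*} [AddCommGroup V] [Module k V]

/-- no zero divisors -/
theorem SS_dom {y : (ι →₀ ℕ) → Multiset A → k} {f : (ι →₀ ℕ) → Multiset A → V} {d₀ : ι →₀ ℕ}
    (hy : y d₀ 0 ≠ 0) (h : ∀ d s, SS d s (fun d₁ s₁ d₂ s₂ => y d₁ s₁ • f d₂ s₂) = 0) (s : Multiset A) :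
    ∀ d, f d s = 0 := by
  induction hn : Multiset.card s using Nat.strong_induction_on generalizing s with
  | _ n ih =>
    have key : ∀ d, ∑ e ∈ antidiagonal d, y e.1 0 • f e.2 s = 0 := by
      intro d
      rw [← h d s, SS_left_ms]
      intro d₁ s₁ d₂ s₂ _ h2 h3
      have : Multiset.card s₂ < n := by
        have h4 := Multiset.card_pos.2 h3
        rw [← hn, ← h2, Multiset.card_add]
        omega
      rw [ih _ this s₂ rfl, smul_zero]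
    intro d
    refine (Module.forall_dual_apply_eq_zero_iff k _).1 fun φ => ?_
    let P : MvPowerSeries ι k := fun n => y n 0
    let R : MvPowerSeries ι k := fun n => φ (f n s)
    have hPR : P * R = 0 := by
      ext n
      rw [MvPowerSeries.coeff_mul, map_zero, ← map_zero φ, ← key n, map_sum]
      refine Finset.sum_congr (by congr) fun e _ => ?_
      rw [map_smul]
      rfl
    rcases mul_eq_zero.1 hPR with h0 | h0
    · exact absurd (congrFun h0 d₀) hy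
    · exact congrFun h0 d

/-- the recursion in the `G`-degree -/
theorem core [CharZero k] (j : ι) (K P : (ι →₀ ℕ) → Multiset A → Prop)
    (hKP : ∀ d₁ s₁ d₂ s₂, P d₁ s₁ → K d₂ s₂ → K (d₁ + d₂) (s₁ + s₂))
    (g : V →ₗ[k] V) (Γ : (ι →₀ ℕ) → Multiset A → V →ₗ[k] V)
    (f₁ f₂ R : (ι →₀ ℕ) → Multiset A → V) (p r y t : (ι →₀ ℕ) → Multiset A → k)
    (hf₁ : ∀ d s, ¬K d s → f₁ d s = 0) (hf₂ : ∀ d s, ¬K d s → f₂ d s = 0)
    (hyP : ∀ d s, ¬P d s → y d s = 0)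
    (hΓ : ∀ d s, d j = 0 → Γ d s = 0) (hp : ∀ d s, d j = 0 → p d s = 0)
    (hr : ∀ d s, d j = 0 → r d s = 0) (hy : ∀ d s, d j = 0 → y d s = 0)
    (ht : ∀ d s, d j = 0 → t d s = 0) (hgg : ∀ d s, g (g (f₁ d s)) = 0)
    (hR : ∀ d s, R d s ∈ Submodule.span k {x | ∃ d₁ s₁, d₁ j < d j ∧ x = f₁ d₁ s₁})
    (e1 : ∀ d s, K d s → g (f₁ d s) + SS d s (fun d₁ s₁ d₂ s₂ => Γ d₁ s₁ (f₁ d₂ s₂)) =
      f₂ d s + SS d s fun d₁ s₁ d₂ s₂ => p d₁ s₁ • f₁ d₂ s₂ + r d₁ s₁ • f₂ d₂ s₂)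
    (e2 : ∀ d s, K d s → g (f₂ d s) + SS d s (fun d₁ s₁ d₂ s₂ => Γ d₁ s₁ (f₂ d₂ s₂)) =
      SS d s fun d₁ s₁ d₂ s₂ => y d₁ s₁ • f₁ d₂ s₂ + t d₁ s₁ • f₂ d₂ s₂)
    (e3 : ∀ d s, K d s → R d s = (d j : k) • f₂ d s +
      SS d s (fun d₁ s₁ d₂ s₂ => (d₂ j : k) • (p d₁ s₁ • f₁ d₂ s₂ + r d₁ s₁ • f₂ d₂ s₂)) +
      ((d j : k) • g (f₁ d s) + SS d s fun d₁ s₁ d₂ s₂ => (d₂ j : k) • Γ d₁ s₁ (f₁ d₂ s₂)))
    (hend : ∀ d s, d j = 0 → f₂ d s = 0) {d₀ : ι →₀ ℕ} (h₀ : d₀ j = 1) (hy₀ : y d₀ 0 ≠ 0) :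
    ∀ d s, f₁ d s = 0 ∧ f₂ d s = 0 := by
  suffices H : ∀ i, ∀ (d : ι →₀ ℕ) s, d j = i → f₁ d s = 0 ∧ f₂ d s = 0 from fun d s => H _ d s rfl
  intro i
  induction i using Nat.strong_induction_on with
  | _ i ih =>
  have lo₁ : ∀ (d : ι →₀ ℕ) s, d j < i → f₁ d s = 0 := fun d s h => (ih _ h d s rfl).1
  have lo₂ : ∀ (d : ι →₀ ℕ) s, d j < i → f₂ d s = 0 := fun d s h => (ih _ h d s rfl).2
  have ad : ∀ {d₁ d₂ d : ι →₀ ℕ}, d₁ + d₂ = d → d₁ j + d₂ j = d j := fun h => by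
    rw [← h, Finsupp.add_apply]
  have Rz : ∀ (φ : V →ₗ[k] V) (d : ι →₀ ℕ) s, (∀ (d₁ : ι →₀ ℕ) s₁, d₁ j < d j → φ (f₁ d₁ s₁) = 0) →
      φ (R d s) = 0 := fun φ d s h => by
    have : Submodule.span k {x | ∃ d₁ s₁, d₁ j < d j ∧ x = f₁ d₁ s₁} ≤ LinearMap.ker φ :=
      Submodule.span_le.2 (by rintro _ ⟨d₁, s₁, h1, rfl⟩; exact h d₁ s₁ h1)
    exact this (hR d s)
  -- order `i`
  have A1 : ∀ (d : ι →₀ ℕ) s, d j = i → f₂ d s = 0 ∧ g (f₁ d s) = 0 := by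
    intro d s hd
    by_cases hK : K d s
    swap
    · rw [hf₁ d s hK, hf₂ d s hK, map_zero]
      exact ⟨rfl, rfl⟩
    have z : ∀ {d₁ d₂ : ι →₀ ℕ}, d₁ + d₂ = d → d₁ j = 0 ∨ d₂ j < i := fun h => by
      have := ad h
      omega
    have a1 := e1 d s hK
    have a3 := e3 d s hK
    rw [SS_eq_zero fun d₁ s₁ d₂ s₂ h _ => (z h).elim (fun h => by simp [hΓ _ _ h])
        fun h => by simp [lo₁ _ _ h],
      SS_eq_zero fun d₁ s₁ d₂ s₂ h _ => (z h).elim (fun h => by simp [hp _ _ h, hr _ _ h])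
        fun h => by simp [lo₁ _ _ h, lo₂ _ _ h], add_zero, add_zero] at a1
    rw [SS_eq_zero fun d₁ s₁ d₂ s₂ h _ => (z h).elim (fun h => by simp [hp _ _ h, hr _ _ h])
        fun h => by simp [lo₁ _ _ h, lo₂ _ _ h],
      SS_eq_zero fun d₁ s₁ d₂ s₂ h _ => (z h).elim (fun h => by simp [hΓ _ _ h])
        fun h => by simp [lo₁ _ _ h], add_zero, add_zero, a1,
      show R d s = 0 from Rz LinearMap.id d s fun d₁ s₁ h => lo₁ _ _ (hd ▸ h), ← add_smul] at a3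
    have h2 : f₂ d s = 0 := by
      rcases Nat.eq_zero_or_pos (d j) with h | h
      · exact hend d s h
      · refine (smul_eq_zero.1 a3.symm).resolve_left ?_
        exact_mod_cast (by omega : d j + d j ≠ 0)
    exact ⟨h2, a1.trans h2⟩
  have le₂ : ∀ (d : ι →₀ ℕ) s, d j ≤ i → f₂ d s = 0 := fun d s h =>
    h.lt_or_eq.elim (lo₂ d s) fun h => (A1 d s h).1
  have leg : ∀ (d : ι →₀ ℕ) s, d j ≤ i → g (f₁ d s) = 0 := fun d s h =>
    h.lt_or_eq.elim (fun h => by rw [lo₁ d s h, map_zero]) fun h => (A1 d s h).2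
  -- order `i + 1`
  have A2 : ∀ (d : ι →₀ ℕ) s, d j = i + 1 → K d s →
      SS d s (fun d₁ s₁ d₂ s₂ => y d₁ s₁ • f₁ d₂ s₂) = 0 := by
    intro d s hd hK
    have z : ∀ {d₁ d₂ : ι →₀ ℕ}, d₁ + d₂ = d → d₁ j = 0 ∨ d₂ j ≤ i := fun h => by
      have := ad h
      omega
    have a1 := congrArg g (e1 d s hK)
    have a2 := e2 d s hK
    have a3 := congrArg g (e3 d s hK)
    have b : SS d s (fun d₁ s₁ d₂ s₂ => (d₂ j : k) • Γ d₁ s₁ (f₁ d₂ s₂)) =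
        (i : k) • SS d s fun d₁ s₁ d₂ s₂ => Γ d₁ s₁ (f₁ d₂ s₂) := by
      rw [smul_SS]
      refine SS_congr fun d₁ s₁ d₂ s₂ h _ => ?_
      rcases z h with h | h
      · simp [hΓ _ _ h]
      · rcases h.lt_or_eq with h | h
        · simp [lo₁ _ _ h]
        · rw [h]
    have c1 : g (SS d s fun d₁ s₁ d₂ s₂ => p d₁ s₁ • f₁ d₂ s₂ + r d₁ s₁ • f₂ d₂ s₂) = 0 := by
      rw [map_SS]
      exact SS_eq_zero fun d₁ s₁ d₂ s₂ h _ => (z h).elim (fun h => by simp [hp _ _ h, hr _ _ h])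
        fun h => by simp [leg _ _ h, le₂ _ _ h]
    have c3 : g (SS d s fun d₁ s₁ d₂ s₂ =>
        (d₂ j : k) • (p d₁ s₁ • f₁ d₂ s₂ + r d₁ s₁ • f₂ d₂ s₂)) = 0 := by
      rw [map_SS]
      exact SS_eq_zero fun d₁ s₁ d₂ s₂ h _ => (z h).elim (fun h => by simp [hp _ _ h, hr _ _ h])
        fun h => by simp [leg _ _ h, le₂ _ _ h]
    rw [map_add, map_add, hgg, zero_add, c1, add_zero] at a1
    rw [b, Rz g d s fun d₁ s₁ h => leg _ _ (by omega), map_add, map_add, c3, add_zero, map_add,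
      map_smul, map_smul, map_smul, hgg, smul_zero, zero_add, a1, ← add_smul] at a3
    have h2 : g (f₂ d s) = 0 := by
      refine (smul_eq_zero.1 a3.symm).resolve_left ?_
      exact_mod_cast (by omega : d j + i ≠ 0)
    rw [h2, zero_add, SS_eq_zero fun d₁ s₁ d₂ s₂ h _ => (z h).elim (fun h => by simp [hΓ _ _ h])
      fun h => by simp [le₂ _ _ h]] at a2
    rw [a2]
    exact SS_congr fun d₁ s₁ d₂ s₂ h _ => (z h).elim (fun h => by simp [ht _ _ h])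
      fun h => by simp [le₂ _ _ h]
  intro d s hd
  refine ⟨?_, (A1 d s hd).1⟩
  have := SS_dom (y := fun d s => if d j = 1 then y d s else 0)
    (f := fun d s => if d j = i then f₁ d s else 0) (d₀ := d₀) (by simpa [h₀] using hy₀) ?_ s d
  · simpa [hd] using this
  intro d s
  by_cases hK : d j = i + 1 ∧ K d s
  · rw [← A2 d s hK.1 hK.2]
    refine SS_congr fun d₁ s₁ d₂ s₂ h _ => ?_
    have := ad h
    by_cases h1 : d₁ j = 1
    · rw [if_pos h1, if_pos (by omega)]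
    · rw [if_neg h1, zero_smul]
      rcases Nat.eq_zero_or_pos (d₁ j) with h0 | h0
      · simp [hy _ _ h0]
      · simp [lo₁ d₂ s₂ (by omega)]
  · refine SS_eq_zero fun d₁ s₁ d₂ s₂ h h' => ?_
    have := ad h
    by_cases h1 : d₁ j = 1
    swap
    · simp [h1]
    by_cases h2 : d₂ j = i
    swap
    · simp [h2]
    by_cases h3 : P d₁ s₁
    swap
    · simp [hyP _ _ h3]
    by_cases h4 : K d₂ s₂
    swap
    · simp [hf₁ _ _ h4]
    exact absurd ⟨by omega, h ▸ h' ▸ hKP _ _ _ _ h3 h4⟩ hK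

end Crest.Agent.X262.Gc84
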