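import Crest.Agent.X262.Gc84.Defs
import Crest.Agent.X262.Gc84.SS

/-!
# Row 262, road B (helper84): consequences of the divisor axiom and of associativity
-/

set_option autoImplicit false

namespace Crest.Agent.X262.Gc84

open Crest.Agent.X262.Ult

variable {k : Type*} [Field k] {ι : Type} [DecidableEq ι] {H : Type*} [CommRing H] [Algebra k H]

theorem In.cons {A : Submodule k H} {a : H} {l : Multiset H} (ha : a ∈ A) (hl : In A l) :
    In A (a ::ₘ l) := fun b hb => (Multiset.mem_cons.1 hb).elim (fun h => h ▸ ha) (hl b)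

theorem In.zero {A : Submodule k H} : In A 0 := fun _ h => absurd h (Multiset.notMem_zero _)

theorem In.add {A : Submodule k H} {l l' : Multiset H} (h : In A l) (h' : In A l') :
    In A (l + l') := fun b hb => (Multiset.mem_add.1 hb).elim (h b) (h' b)

theorem In.left {A : Submodule k H} {l l' s : Multiset H} (h : In A s) (e : l + l' = s) :
    In A l := fun b hb => h b (e ▸ Multiset.mem_add.2 (Or.inl hb))

theorem In.right {A : Submodule k H} {l l' s : Multiset H} (h : In A s) (e : l + l' = s) :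
    In A l' := fun b hb => h b (e ▸ Multiset.mem_add.2 (Or.inr hb))

theorem two_le_card {X : Type*} (x : X) {l : Multiset X} (hl : l ≠ 0) :
    2 ≤ Multiset.card (x ::ₘ l) := by
  have := Multiset.card_pos.2 hl
  rw [Multiset.card_cons]
  omega

theorem SS_split {X A : Type*} [AddCommMonoid X] {d : ι →₀ ℕ} {s : Multiset A}
    {F : (ι →₀ ℕ) → Multiset A → (ι →₀ ℕ) → Multiset A → X} (j : ι)
    (h : ∀ d₁ s₁ d₂ s₂, d₁ + d₂ = d → s₁ + s₂ = s → d₁ j = 0 → d₁ ≠ 0 ∨ s₁ ≠ 0 →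
      F d₁ s₁ d₂ s₂ = 0) :
    SS d s F = F 0 0 d s + SS d s fun d₁ s₁ d₂ s₂ => if d₁ j = 0 then 0 else F d₁ s₁ d₂ s₂ := by
  have e : SS d s (fun d₁ s₁ d₂ s₂ => if d₁ j = 0 then F d₁ s₁ d₂ s₂ else 0) = F 0 0 d s := by
    rw [SS_left]
    · simp
    · intro d₁ s₁ d₂ s₂ h1 h2 h3
      split_ifs with h4
      exacts [h _ _ _ _ h1 h2 h4 h3, rfl]
  rw [← e, ← SS_add]
  refine SS_congr fun d₁ s₁ d₂ s₂ _ _ => ?_
  split_ifs <;> simp

theorem wd (Q : Hyc k ι H) (d : ι →₀ ℕ) (l : Multiset H) (a b c : H) :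
    SS d l (fun d₁ s₁ d₂ s₂ => Q.op d₂ (Q.op d₁ (a ::ₘ b ::ₘ s₁) ::ₘ c ::ₘ s₂)) =
      SS d l fun d₁ s₁ d₂ s₂ => Q.op d₂ (Q.op d₁ (a ::ₘ c ::ₘ s₁) ::ₘ b ::ₘ s₂) :=
  Q.wdvv d l a b c

section Div

variable {Q : Hyc k ι H} {h : ι → H}

theorem op_div (dv : ∀ j, Q.IsDiv (h j) fun d => (d j : k)) (j : ι) (d : ι →₀ ℕ) (x : H)
    {l : Multiset H} (hl : l ≠ 0) : Q.op d (x ::ₘ h j ::ₘ l) = (d j : k) • Q.op d (x ::ₘ l) := by
  rw [Multiset.cons_swap]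
  exact dv j d _ (two_le_card x hl)

/-- a divisor insertion of degree zero kills the operation -/
theorem op_div_zero [CharZero k] (dv : ∀ j, Q.IsDiv (h j) fun d => (d j : k)) {j : ι}
    {d : ι →₀ ℕ} (hj : d j = 0) (x : H) {l : Multiset H} (hl : d ≠ 0 ∨ l ≠ 0) :
    Q.op d (x ::ₘ h j ::ₘ l) = 0 := by
  by_cases h0 : l = 0
  · subst h0
    obtain ⟨j', hj'⟩ := Finsupp.ne_iff.1 (hl.resolve_right fun h => h rfl)
    have e1 := op_div dv j' d x (l := h j ::ₘ 0) Multiset.cons_ne_zero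
    rw [Multiset.cons_swap (h j'), op_div dv j d x Multiset.cons_ne_zero, hj, Nat.cast_zero,
      zero_smul] at e1
    exact (smul_eq_zero.1 e1.symm).resolve_left (Nat.cast_ne_zero.2 hj')
  · rw [op_div dv j d x h0, hj, Nat.cast_zero, zero_smul]

/-- the operations are linear over a divisor class of degree zero -/
theorem op_lin [CharZero k] (dv : ∀ j, Q.IsDiv (h j) fun d => (d j : k)) {j : ι}
    {d : ι →₀ ℕ} (hj : d j = 0) (x : H) {l : Multiset H} (hl : l ≠ 0) :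
    Q.op d ((h j * x) ::ₘ l) = h j * Q.op d (x ::ₘ l) := by
  obtain ⟨b, hb⟩ := Multiset.exists_mem_of_ne_zero hl
  obtain ⟨l, rfl⟩ := Multiset.exists_cons_of_mem hb
  have e := wd Q d l x (h j) b
  have z : ∀ {d₁ d₂ : ι →₀ ℕ}, d₁ + d₂ = d → d₁ j = 0 ∧ d₂ j = 0 := fun h => by
    rw [← h, Finsupp.add_apply] at hj
    omega
  rw [SS_left fun d₁ s₁ d₂ s₂ h1 _ h3 => by rw [op_div_zero dv (z h1).1 x h3, Q.op_zero],
    SS_right fun d₁ s₁ d₂ s₂ h1 _ h3 => op_div_zero dv (z h1).2 _ h3, Q.cl, Q.cl] at e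
  rw [mul_comm, e, mul_comm]

end Div

/-- the commutator -/
def C (Q : Hyc k ι H) (u : H →ₗ[k] H) (d : ι →₀ ℕ) (l : Multiset H) : H →ₗ[k] H :=
  u ∘ₗ Q.opl d l - Q.opl d l ∘ₗ u

theorem C_apply (Q : Hyc k ι H) (u : H →ₗ[k] H) (d : ι →₀ ℕ) (l : Multiset H) (x : H) :
    C Q u d l x = u (Q.op d (x ::ₘ l)) - Q.op d (u x ::ₘ l) := rfl

theorem cm_iff {Q : Hyc k ι H} {u : H →ₗ[k] H} {d : ι →₀ ℕ} {l : Multiset H} {x : H} :
    Cm Q u d l x ↔ C Q u d l x = 0 := by rw [C_apply, sub_eq_zero, Cm]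

theorem C_SS₂ (Q : Hyc k ι H) (u : H →ₗ[k] H) (d : ι →₀ ℕ) (s : Multiset H) (a b x : H) :
    SS d s (fun d₁ s₁ d₂ s₂ => C Q u d₂ (b ::ₘ s₂) (Q.op d₁ (x ::ₘ a ::ₘ s₁))) +
      SS d s (fun d₁ s₁ d₂ s₂ => Q.op d₂ (C Q u d₁ (a ::ₘ s₁) x ::ₘ b ::ₘ s₂)) =
    u (SS d s fun d₁ s₁ d₂ s₂ => Q.op d₂ (Q.op d₁ (x ::ₘ a ::ₘ s₁) ::ₘ b ::ₘ s₂)) -
      SS d s fun d₁ s₁ d₂ s₂ => Q.op d₂ (Q.op d₁ (u x ::ₘ a ::ₘ s₁) ::ₘ b ::ₘ s₂) := by
  rw [eq_sub_iff_add_eq, map_SS, ← SS_add, ← SS_add]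
  refine SS_congr fun d₁ s₁ d₂ s₂ _ _ => ?_
  rw [C_apply, C_apply, Q.op_sub]
  abel

/-- the commutator of the symmetry `L_a L_b = L_b L_a` -/
theorem C_sym (Q : Hyc k ι H) (u : H →ₗ[k] H) (d : ι →₀ ℕ) (s : Multiset H) (a b x : H) :
    SS d s (fun d₁ s₁ d₂ s₂ => C Q u d₂ (b ::ₘ s₂) (Q.op d₁ (x ::ₘ a ::ₘ s₁))) +
      SS d s (fun d₁ s₁ d₂ s₂ => Q.op d₂ (C Q u d₁ (a ::ₘ s₁) x ::ₘ b ::ₘ s₂)) =
    SS d s (fun d₁ s₁ d₂ s₂ => C Q u d₂ (a ::ₘ s₂) (Q.op d₁ (x ::ₘ b ::ₘ s₁))) +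
      SS d s (fun d₁ s₁ d₂ s₂ => Q.op d₂ (C Q u d₁ (b ::ₘ s₁) x ::ₘ a ::ₘ s₂)) := by
  rw [C_SS₂, C_SS₂, wd Q d s x a b, wd Q d s (u x) a b]

/-- the commutator of `L_{a * b} = L_a L_b` -/
theorem C_der (Q : Hyc k ι H) (u : H →ₗ[k] H) (d : ι →₀ ℕ) (s : Multiset H) (a b x : H) :
    SS d s (fun d₁ s₁ d₂ s₂ => C Q u d₂ (Q.op d₁ (a ::ₘ b ::ₘ s₁) ::ₘ s₂) x) =
    SS d s (fun d₁ s₁ d₂ s₂ => C Q u d₂ (b ::ₘ s₂) (Q.op d₁ (x ::ₘ a ::ₘ s₁))) +
      SS d s (fun d₁ s₁ d₂ s₂ => Q.op d₂ (C Q u d₁ (a ::ₘ s₁) x ::ₘ b ::ₘ s₂)) := by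
  have e : ∀ y, SS d s (fun d₁ s₁ d₂ s₂ => Q.op d₂ (Q.op d₁ (y ::ₘ a ::ₘ s₁) ::ₘ b ::ₘ s₂)) =
      SS d s fun d₁ s₁ d₂ s₂ => Q.op d₂ (y ::ₘ Q.op d₁ (a ::ₘ b ::ₘ s₁) ::ₘ s₂) := fun y => by
    have := wd Q d s a y b
    simp only [Multiset.cons_swap a y, Multiset.cons_swap _ y] at this
    exact this
  rw [C_SS₂, e, e, eq_sub_iff_add_eq, map_SS, ← SS_add]
  refine SS_congr fun d₁ s₁ d₂ s₂ _ _ => ?_
  rw [C_apply]
  abel

theorem C_div {Q : Hyc k ι H} {h : ι → H} (dv : ∀ j, Q.IsDiv (h j) fun d => (d j : k))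
    (u : H →ₗ[k] H) (j : ι) (d : ι →₀ ℕ) {l : Multiset H} (hl : l ≠ 0) (x : H) :
    C Q u d (h j ::ₘ l) x = (d j : k) • C Q u d l x := by
  rw [C_apply, C_apply, op_div dv j d _ hl, op_div dv j d _ hl, map_smul, smul_sub]

variable (k) in
/-- the filtration by the powers of the ideal `(D, λ)` -/
def Wf (D lam : H) : ℕ → Submodule k H
  | 0 => ⊤
  | t + 1 => (Wf D lam t).map (LinearMap.mulLeft k D) ⊔ (Wf D lam t).map (LinearMap.mulLeft k lam)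

theorem Wf_D {D lam x : H} {t : ℕ} (hx : x ∈ Wf k D lam t) : D * x ∈ Wf k D lam (t + 1) :=
  Submodule.mem_sup_left ⟨x, hx, rfl⟩

theorem Wf_lam {D lam x : H} {t : ℕ} (hx : x ∈ Wf k D lam t) : lam * x ∈ Wf k D lam (t + 1) :=
  Submodule.mem_sup_right ⟨x, hx, rfl⟩

theorem Wf_keep {D lam : H} (T : H →ₗ[k] H) (h1 : ∀ x, T (D * x) = D * T x)
    (h2 : ∀ x, T (lam * x) = lam * T x) (t : ℕ) : Wf k D lam t ≤ (Wf k D lam t).comap T := by
  induction t with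
  | zero => exact fun _ _ => trivial
  | succ t ih =>
    refine sup_le ?_ ?_
    · rintro _ ⟨x, hx, rfl⟩
      change T (D * x) ∈ Wf k D lam (t + 1)
      rw [h1]
      exact Wf_D (ih hx)
    · rintro _ ⟨x, hx, rfl⟩
      change T (lam * x) ∈ Wf k D lam (t + 1)
      rw [h2]
      exact Wf_lam (ih hx)

theorem Wf_bot {D lam : H} (h1 : IsNilpotent D) (h2 : IsNilpotent lam) :
    ∃ t, ∀ x ∈ Wf k D lam t, x = 0 := by
  classical
  have e : ∀ t, Wf k D lam t ≤ ((Ideal.span {D, lam} : Ideal H) ^ t).restrictScalars k := by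
    intro t
    induction t with
    | zero => intro x _; simp
    | succ t ih =>
      refine sup_le ?_ ?_
      · rintro _ ⟨x, hx, rfl⟩
        change D * x ∈ (Ideal.span {D, lam} : Ideal H) ^ (t + 1)
        rw [pow_succ']
        exact Ideal.mul_mem_mul (Ideal.subset_span (by simp)) (ih hx)
      · rintro _ ⟨x, hx, rfl⟩
        change lam * x ∈ (Ideal.span {D, lam} : Ideal H) ^ (t + 1)
        rw [pow_succ']
        exact Ideal.mul_mem_mul (Ideal.subset_span (by simp)) (ih hx)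
  have hn : IsNilpotent (Ideal.span {D, lam} : Ideal H) := by
    refine (Ideal.FG.isNilpotent_iff_le_nilradical ⟨{D, lam}, by simp⟩).2 (Ideal.span_le.2 ?_)
    rintro x (rfl | rfl)
    exacts [h1, h2]
  obtain ⟨t, ht⟩ := hn
  refine ⟨t, fun x hx => ?_⟩
  have : x ∈ (Ideal.span {D, lam} : Ideal H) ^ t := e t hx
  rwa [ht] at this

theorem mem_Me₁ (lam G e : H) : e ∈ Me k lam G e :=
  Submodule.subset_span ⟨0, Or.inl (by simp)⟩

theorem mem_Me₂ (lam G e : H) : G * e ∈ Me k lam G e :=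
  Submodule.subset_span ⟨0, Or.inr (by simp)⟩

theorem Me_le {lam G e : H} {E : Set H} (he : e ∈ E) : Me k lam G e ≤ MM k lam G E :=
  le_iSup₂ (f := fun e (_ : e ∈ E) => Me k lam G e) e he

theorem Me_dec {lam G e x : H} (hx : x ∈ Me k lam G e) :
    ∃ p r : k, ∃ z ∈ Me k lam G e, x = p • e + r • (G * e) + lam * z := by
  induction hx using Submodule.span_induction with
  | mem x hx =>
    obtain ⟨i, hx⟩ := hx
    rcases i with _ | i
    · rcases hx with rfl | rfl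
      · exact ⟨1, 0, 0, zero_mem _, by simp⟩
      · exact ⟨0, 1, 0, zero_mem _, by simp⟩
    · rcases hx with rfl | rfl
      · exact ⟨0, 0, _, Submodule.subset_span ⟨i, Or.inl rfl⟩, by simp; ring⟩
      · exact ⟨0, 0, _, Submodule.subset_span ⟨i, Or.inr rfl⟩, by simp; ring⟩
  | zero => exact ⟨0, 0, 0, zero_mem _, by simp⟩
  | add x y _ _ hx hy =>
    obtain ⟨p, r, z, hz, rfl⟩ := hx
    obtain ⟨p', r', z', hz', rfl⟩ := hy
    exact ⟨p + p', r + r', z + z', add_mem hz hz', by rw [add_smul, add_smul, mul_add]; abel⟩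
  | smul a x _ hx =>
    obtain ⟨p, r, z, hz, rfl⟩ := hx
    exact ⟨a * p, a * r, a • z, Submodule.smul_mem _ _ hz, by
      rw [smul_add, smul_add, smul_smul, smul_smul, mul_smul_comm]⟩

/-- a `λ`-linear map which sends `e` and `G * e` into a `λ`-stable subspace -/
theorem Me_le_comap {lam G e : H} (T : H →ₗ[k] H) (hT : ∀ x, T (lam * x) = lam * T x)
    {W : Submodule k H} (hW : ∀ x ∈ W, lam * x ∈ W) (h1 : T e ∈ W) (h2 : T (G * e) ∈ W) :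
    Me k lam G e ≤ W.comap T := by
  have key : ∀ y, T y ∈ W → ∀ i : ℕ, T (lam ^ i * y) ∈ W := fun y hy i => by
    induction i with
    | zero => simpa using hy
    | succ i ih =>
      rw [pow_succ', mul_assoc, hT]
      exact hW _ ih
  refine Submodule.span_le.2 ?_
  rintro _ ⟨i, rfl | rfl⟩
  exacts [key _ h1 i, key _ h2 i]

end Crest.Agent.X262.Gc84
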