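import Crest.Agent.X262.Gc84.Bas

/-!
# Row 262, road B (helper84): (GC) as the invariance of `Me e`
-/

set_option autoImplicit false

namespace Crest.Agent.X262.Gc84

open Crest.Agent.X262.Ult

variable {k : Type*} [Field k] [CharZero k] {ι : Type} [DecidableEq ι] {H : Type*} [CommRing H]
  [Algebra k H] {Q : Hyc k ι H} {A : Submodule k H} {h : ι → H} {jA jG jS : ι} {e : H}

/-- the hypotheses of the invariance theorem -/
structure HypI (Q : Hyc k ι H) (A : Submodule k H) (h : ι → H) (jA jG jS : ι) (e : H) : Prop where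
  dv : ∀ j, Q.IsDiv (h j) fun d => (d j : k)
  hA : ∀ j, h j ∈ A
  opA : ∀ d l, In A l → 2 ≤ Multiset.card l → Q.op d l ∈ A
  nilD : IsNilpotent (h jA)
  nilS : IsNilpotent (h jS)
  GG : h jG * h jG = h jS * h jG
  De : h jA * e = 0
  keep : ∀ (d : ι →₀ ℕ) l, d jA = 0 → d jS = 0 → In A l → l ≠ 0 →
    Q.op d (e ::ₘ l) ∈ Me k (h jS) (h jG) e ∧ Q.op d ((h jG * e) ::ₘ l) ∈ Me k (h jS) (h jG) e
  num : ∃ d : ι →₀ ℕ, d jA = 0 ∧ d jS = 0 ∧ d jG = 1 ∧ ∃ y t : k, y ≠ 0 ∧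
    ∃ z ∈ Me k (h jS) (h jG) e,
      Q.op d ((h jG * e) ::ₘ h jG ::ₘ 0) = y • e + t • (h jG * e) + h jS * z
  fin : ∀ (d : ι →₀ ℕ) l, d jG = 0 → d jS = 0 → In A l → l ≠ 0 →
    Q.op d ((h jG * e) ::ₘ l) ∈ Me k (h jS) (h jG) e

omit [CharZero k] in
theorem lam_mul_Me {lam G e x : H} (hx : x ∈ Me k lam G e) : lam * x ∈ Me k lam G e := by
  have : Me k lam G e ≤ (Me k lam G e).comap (LinearMap.mulLeft k lam) := by
    refine Submodule.span_le.2 ?_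
    rintro _ ⟨i, rfl | rfl⟩
    · exact Submodule.subset_span ⟨i + 1, Or.inl (by simp [pow_succ', mul_assoc])⟩
    · exact Submodule.subset_span ⟨i + 1, Or.inr (by simp [pow_succ', mul_assoc])⟩
  exact this hx

omit [CharZero k] in
theorem D_mul_Me {D lam G e x : H} (hD : D * e = 0) (hx : x ∈ Me k lam G e) : D * x = 0 := by
  have : Me k lam G e ≤ (⊥ : Submodule k H).comap (LinearMap.mulLeft k D) := by
    refine Me_le_comap _ (fun x => mul_left_comm _ _ _) (fun x hx => ?_) hD ?_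
    · rw [(Submodule.mem_bot k).1 hx, mul_zero]
      exact zero_mem _
    · change D * (G * e) = 0
      rw [mul_left_comm, hD, mul_zero]
  exact this hx

/-- one step in the `(D, λ)`-adic filtration -/
theorem stepI (hy : HypI Q A h jA jG jS e) {n : ℕ} (hn : n ≠ 0)
    (ihM : ∀ (d : ι →₀ ℕ) l, d jA < n → d jS = 0 → In A l → l ≠ 0 →
      ∀ x ∈ Me k (h jS) (h jG) e, Q.op d (x ::ₘ l) ∈ Me k (h jS) (h jG) e) (t : ℕ)
    (ht' : ∀ (d : ι →₀ ℕ) l, d jA = n → d jS = 0 → In A l → l ≠ 0 → ∀ x ∈ Me k (h jS) (h jG) e,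
      Q.op d (x ::ₘ l) ∈ Me k (h jS) (h jG) e ⊔ Wf k (h jA) (h jS) t)
    (d : ι →₀ ℕ) (l : Multiset H) (hd : d jA = n) (hS : d jS = 0) (hl : In A l) (hl0 : l ≠ 0) :
    ∀ x ∈ Me k (h jS) (h jG) e,
      Q.op d (x ::ₘ l) ∈ Me k (h jS) (h jG) e ⊔ Wf k (h jA) (h jS) (t + 1) := by
  classical
  have dv := hy.dv
  have hnk : (n : k) ≠ 0 := Nat.cast_ne_zero.2 hn
  have ad : ∀ {d₁ d₂ d : ι →₀ ℕ} (j : ι), d₁ + d₂ = d → d₁ j + d₂ j = d j := fun j h => by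
    rw [← h, Finsupp.add_apply]
  set M := Me k (h jS) (h jG) e with hM
  set W := M ⊔ Wf k (h jA) (h jS) t with hW
  set W' := M ⊔ Wf k (h jA) (h jS) (t + 1) with hW'
  let K : (ι →₀ ℕ) → Multiset H → Prop := fun d s => d jA = n ∧ d jS = 0 ∧ In A s
  let P : (ι →₀ ℕ) → Multiset H → Prop := fun d s => d jA = 0 ∧ d jS = 0 ∧ In A s
  obtain ⟨C, hC, ih⟩ : ∃ C : (ι →₀ ℕ) → Multiset H → H →ₗ[k] H,
      (∀ (d : ι →₀ ℕ) l x, d jA = n → C d l x = Q.op d (x ::ₘ l)) ∧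
      ∀ (d : ι →₀ ℕ) l x, d jA ≠ n → C d l x = 0 :=
    ⟨fun d l => if d jA = n then Q.opl d l else 0, fun d l x h1 => by simp [h1],
      fun d l x h1 => by simp [h1]⟩
  have ht : ∀ (d : ι →₀ ℕ) l, d jA = n → d jS = 0 → In A l → l ≠ 0 → ∀ x ∈ M, C d l x ∈ W :=
    fun d l h1 h2 h3 h4 x hx => hC d l x h1 ▸ ht' d l h1 h2 h3 h4 x hx
  have Cdv : ∀ j (d : ι →₀ ℕ) {l}, l ≠ 0 → ∀ x, C d (h j ::ₘ l) x = (d j : k) • C d l x :=
    fun j d l hl x => by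
      by_cases h1 : d jA = n
      · rw [hC _ _ _ h1, hC _ _ _ h1, op_div dv j d x hl]
      · rw [ih _ _ _ h1, ih _ _ _ h1, smul_zero]
  obtain ⟨c, hc⟩ : ∃ c : (ι →₀ ℕ) → Multiset H → H →ₗ[k] H,
      ∀ d s x, C d (h jA ::ₘ s) x = (n : k) • c d s x :=
    ⟨fun d s => (n : k)⁻¹ • C d (h jA ::ₘ s), fun d s x => by
      rw [LinearMap.smul_apply, smul_inv_smul₀ hnk]⟩
  have hcl : ∀ (d : ι →₀ ℕ) l x, d jA = n → l ≠ 0 → C d l x = c d l x := fun d l x h1 h2 => by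
    have := hc d l x
    rw [Cdv jA d h2, h1] at this
    exact smul_right_injective H hnk this
  have hc0 : ∀ (d : ι →₀ ℕ) s x, d jA < n → c d s x = 0 := fun d s x h1 => by
    have := hc d s x
    rw [ih d _ _ h1.ne] at this
    exact (smul_eq_zero.1 this.symm).resolve_left hnk
  have hcW : ∀ d s, K d s → ∀ x ∈ M, c d s x ∈ W := fun d s hK x hx => by
    have := ht d _ hK.1 hK.2.1 (hK.2.2.cons (hy.hA jA)) Multiset.cons_ne_zero x hx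
    rw [hc] at this
    exact (Submodule.smul_mem_iff _ hnk).1 this
  have hcl' : ∀ (d : ι →₀ ℕ) s x, d jS = 0 → c d s (h jS * x) = h jS * c d s x :=
    fun d s x h1 => by
      refine smul_right_injective H hnk ?_
      change (n : k) • _ = (n : k) • _
      rw [← hc, ← mul_smul_comm, ← hc]
      by_cases h2 : d jA = n
      · rw [hC _ _ _ h2, hC _ _ _ h2, op_lin dv h1 _ Multiset.cons_ne_zero]
      · rw [ih _ _ _ h2, ih _ _ _ h2, mul_zero]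
  have hcG : ∀ (d : ι →₀ ℕ) s x, d jA ≤ n → C d (h jG ::ₘ s) x = (d jG : k) • c d s x :=
    fun d s x h1 => by
    rcases h1.lt_or_eq with h1 | h1
    · rw [ih d _ _ h1.ne, hc0 d s x h1, smul_zero]
    · refine smul_right_injective H hnk ?_
      change (n : k) • _ = (n : k) • _
      rw [smul_comm, ← hc, ← Cdv jG d Multiset.cons_ne_zero, Multiset.cons_swap,
        Cdv jA d Multiset.cons_ne_zero, h1]
  have kT : ∀ d s, P d s → W' ≤ W'.comap (Q.opl d (h jG ::ₘ s)) := fun d s hP =>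
    sup_le (fun x hx => Submodule.mem_sup_left (ihM d _ (hP.1 ▸ Nat.pos_of_ne_zero hn) hP.2.1
        (hP.2.2.cons (hy.hA jG)) Multiset.cons_ne_zero x hx))
      fun x hx => Submodule.mem_sup_right (Wf_keep (Q.opl d (h jG ::ₘ s))
        (fun x => op_lin dv hP.1 x Multiset.cons_ne_zero)
        (fun x => op_lin dv hP.2.1 x Multiset.cons_ne_zero) _ hx)
  have kG : W' ≤ W'.comap (LinearMap.mulLeft k (h jG)) := fun x hx => by
    have := kT 0 0 ⟨rfl, rfl, In.zero⟩ hx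
    rwa [Submodule.mem_comap, Hyc.opl_apply, Q.cl, mul_comm] at this
  have kL : W' ≤ W'.comap (LinearMap.mulLeft k (h jS)) :=
    sup_le (fun x hx => Submodule.mem_sup_left (lam_mul_Me hx))
      fun x hx => Submodule.mem_sup_right (Wf_keep (LinearMap.mulLeft k (h jS))
        (fun x => mul_left_comm _ _ _) (fun x => mul_left_comm _ _ _) _ hx)
  have W_D : ∀ {x}, x ∈ W → h jA * x ∈ W' := fun {x} hx => by
    obtain ⟨a, ha, b, hb, rfl⟩ := Submodule.mem_sup.1 hx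
    rw [mul_add, D_mul_Me hy.De ha, zero_add]
    exact Submodule.mem_sup_right (Wf_D hb)
  have W_l : ∀ {x}, x ∈ W → h jS * x ∈ W' := fun {x} hx => by
    obtain ⟨a, ha, b, hb, rfl⟩ := Submodule.mem_sup.1 hx
    rw [mul_add]
    exact Submodule.add_mem_sup (lam_mul_Me ha) (Wf_lam hb)
  have hπ : ∀ {x}, x ∈ W' → W'.mkQ x = 0 := fun hx => (Submodule.Quotient.mk_eq_zero _).2 hx
  suffices main : ∀ d s, K d s → c d s e ∈ W' ∧ c d s (h jG * e) ∈ W' by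
    intro x hx
    rw [← hC d l x hd, hcl d l x hd hl0]
    exact Me_le_comap (c d l) (fun x => hcl' d l x hS) (W := W') (fun x hx => kL hx)
      (main d l ⟨hd, hS, hl⟩).1 (main d l ⟨hd, hS, hl⟩).2 hx
  have m₁ : e ∈ M := mem_Me₁ _ _ _
  have m₂ : h jG * e ∈ M := mem_Me₂ _ _ _
  obtain ⟨d₀, a₀, s₀, g₀, y₀, t₀, hy₀, z₀, hz₀, e₀⟩ := hy.num
  have ex1 : ∀ d s, ∃ p r : k, (P d s ∧ d jG ≠ 0 → ∃ z ∈ M,
      Q.op d (e ::ₘ h jG ::ₘ s) = p • e + r • (h jG * e) + h jS * z) ∧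
      (¬(P d s ∧ d jG ≠ 0) → p = 0 ∧ r = 0) := fun d s => by
    by_cases hP : P d s ∧ d jG ≠ 0
    · obtain ⟨p, r, z, hz, e1⟩ := Me_dec (hy.keep d _ hP.1.1 hP.1.2.1
        (hP.1.2.2.cons (hy.hA jG)) Multiset.cons_ne_zero).1
      exact ⟨p, r, fun _ => ⟨z, hz, e1⟩, fun h => absurd hP h⟩
    · exact ⟨0, 0, fun h => absurd h hP, fun _ => ⟨rfl, rfl⟩⟩
  have ex2 : ∀ d s, ∃ p r : k, (P d s ∧ d jG ≠ 0 → ∃ z ∈ M,
      Q.op d ((h jG * e) ::ₘ h jG ::ₘ s) = p • e + r • (h jG * e) + h jS * z) ∧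
      (¬(P d s ∧ d jG ≠ 0) → p = 0 ∧ r = 0) ∧ (d = d₀ → s = 0 → p ≠ 0) := fun d s => by
    by_cases h0 : d = d₀ ∧ s = 0
    · obtain ⟨rfl, rfl⟩ := h0
      exact ⟨y₀, t₀, fun _ => ⟨z₀, hz₀, e₀⟩,
        fun h => absurd ⟨⟨a₀, s₀, In.zero⟩, by omega⟩ h, fun _ _ => hy₀⟩
    by_cases hP : P d s ∧ d jG ≠ 0
    · obtain ⟨p, r, z, hz, e1⟩ := Me_dec (hy.keep d _ hP.1.1 hP.1.2.1
        (hP.1.2.2.cons (hy.hA jG)) Multiset.cons_ne_zero).2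
      exact ⟨p, r, fun _ => ⟨z, hz, e1⟩, fun h => absurd hP h, fun h1 h2 => absurd ⟨h1, h2⟩ h0⟩
    · exact ⟨0, 0, fun h => absurd h hP, fun _ => ⟨rfl, rfl⟩, fun h1 h2 => absurd ⟨h1, h2⟩ h0⟩
  choose p r hpr hpr0 using ex1
  choose y τ hyt hyt0 hyd using ex2
  let g : H ⧸ W' →ₗ[k] H ⧸ W' := W'.mapQ W' _ kG
  have hg : ∀ x, g (W'.mkQ x) = W'.mkQ (h jG * x) := fun x => rfl
  obtain ⟨Γ, hΓ, hΓ0⟩ : ∃ Γ : (ι →₀ ℕ) → Multiset H → H ⧸ W' →ₗ[k] H ⧸ W',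
      (∀ d s x, P d s → d jG ≠ 0 → Γ d s (W'.mkQ x) = W'.mkQ (Q.op d (x ::ₘ h jG ::ₘ s))) ∧
      ∀ d s, d jG = 0 → Γ d s = 0 :=
    ⟨fun d s => if hP : P d s ∧ d jG ≠ 0 then W'.mapQ W' _ (kT d s hP.1) else 0,
      fun d s x h1 h2 => by
        beta_reduce
        rw [dif_pos ⟨h1, h2⟩]
        rfl,
      fun d s h1 => dif_neg fun h => h.2 h1⟩
  obtain ⟨f, hf, hf0⟩ : ∃ f : H → (ι →₀ ℕ) → Multiset H → H ⧸ W',
      (∀ x d s, K d s → f x d s = W'.mkQ (c d s x)) ∧ ∀ x d s, ¬K d s → f x d s = 0 :=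
    ⟨fun x d s => if K d s then W'.mkQ (c d s x) else 0, fun x d s h => if_pos h,
      fun x d s h => if_neg h⟩
  have cs : ∀ {d s d₁ s₁ d₂ s₂}, K d s → d₁ + d₂ = d → s₁ + s₂ = s →
      (P d₁ s₁ ∧ K d₂ s₂) ∨ (d₂ jA < n ∧ d₂ jS = 0 ∧ In A s₂) := by
    intro d s d₁ s₁ d₂ s₂ hK h1 h2
    have b1 := ad jA h1
    have b2 := ad jS h1
    obtain ⟨k1, k2, k3⟩ := hK
    by_cases h3 : d₂ jA = n
    · exact Or.inl ⟨⟨by omega, by omega, k3.left h2⟩, h3, by omega, k3.right h2⟩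
    · exact Or.inr ⟨by omega, by omega, k3.right h2⟩
  have SS₂ : ∀ d s, K d s → ∀ a ∈ A, ∀ b ∈ A, ∀ x ∈ M,
      W'.mkQ (SS d s fun d₁ s₁ d₂ s₂ => Q.op d₂ (Q.op d₁ (x ::ₘ a ::ₘ s₁) ::ₘ b ::ₘ s₂)) =
      W'.mkQ (SS d s fun d₁ s₁ d₂ s₂ => C d₂ (b ::ₘ s₂) (Q.op d₁ (x ::ₘ a ::ₘ s₁))) +
      W'.mkQ (SS d s fun d₁ s₁ d₂ s₂ => Q.op d₂ (C d₁ (a ::ₘ s₁) x ::ₘ b ::ₘ s₂)) := by
    intro d s hK a ha b hb x hx
    rw [map_SS, map_SS, map_SS, ← SS_add]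
    refine SS_congr fun d₁ s₁ d₂ s₂ h1 h2 => ?_
    have b1 := ad jA h1
    have b2 := ad jS h1
    obtain ⟨k1, k2, k3⟩ := hK
    by_cases h3 : d₂ jA = n
    · rw [hC _ _ _ h3, ih d₁ _ _ (by omega), Q.op_zero, map_zero, add_zero]
    rw [ih _ _ _ h3, map_zero, zero_add]
    by_cases h4 : d₁ jA = n
    · rw [hC _ _ _ h4]
    rw [ih _ _ _ h4, Q.op_zero, map_zero]
    exact hπ (Submodule.mem_sup_left (ihM d₂ _ (by omega) (by omega) ((k3.right h2).cons hb)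
      Multiset.cons_ne_zero _ (ihM d₁ _ (by omega) (by omega) ((k3.left h2).cons ha)
        Multiset.cons_ne_zero x hx)))
  have L1 : ∀ (w : (ι →₀ ℕ) → k) (x : H) (a b : (ι →₀ ℕ) → Multiset H → k),
      (∀ d s, P d s ∧ d jG ≠ 0 → ∃ z ∈ M,
        Q.op d (x ::ₘ h jG ::ₘ s) = a d s • e + b d s • (h jG * e) + h jS * z) →
      (∀ d s, ¬(P d s ∧ d jG ≠ 0) → a d s = 0 ∧ b d s = 0) → ∀ d s, K d s →
      W'.mkQ (SS d s fun d₁ s₁ d₂ s₂ => w d₂ • c d₂ s₂ (Q.op d₁ (x ::ₘ h jG ::ₘ s₁))) =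
        w d • f (h jG * x) d s + SS d s fun d₁ s₁ d₂ s₂ =>
          w d₂ • (a d₁ s₁ • f e d₂ s₂ + b d₁ s₁ • f (h jG * e) d₂ s₂) := by
    intro w x a b h1 h2 d s hK
    rw [SS_split jG fun d₁ s₁ d₂ s₂ _ _ h3 h4 => by
      rw [op_div_zero dv h3 x h4, map_zero, smul_zero], map_add, map_smul, Q.cl, mul_comm x,
      ← hf _ d s hK, map_SS]
    congr 1
    refine SS_congr fun d₁ s₁ d₂ s₂ e1 e2 => ?_
    split_ifs with h3
    · obtain ⟨ha, hb⟩ := h2 d₁ s₁ fun h => h.2 h3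
      simp [ha, hb]
    rcases cs hK e1 e2 with ⟨hP, hK₂⟩ | ⟨k1, k2, k3⟩
    · obtain ⟨z, hz, e3⟩ := h1 d₁ s₁ ⟨hP, h3⟩
      rw [e3, map_smul, map_add, map_add, map_add, map_add, hcl' _ _ _ hK₂.2.1,
        hπ (W_l (hcW _ _ hK₂ z hz)), add_zero, map_smul, map_smul, map_smul,
        map_smul, hf _ _ _ hK₂, hf _ _ _ hK₂]
    · have hK₂ : ¬K d₂ s₂ := fun h => k1.ne h.1
      rw [hc0 _ _ _ k1, hf0 _ _ _ hK₂, hf0 _ _ _ hK₂]
      simp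
  have L2 : ∀ (w : (ι →₀ ℕ) → k) (x : H) d s, K d s →
      W'.mkQ (SS d s fun d₁ s₁ d₂ s₂ => w d₁ • Q.op d₂ (c d₁ s₁ x ::ₘ h jG ::ₘ s₂)) =
        w d • g (f x d s) + SS d s fun d₁ s₁ d₂ s₂ => w d₂ • Γ d₁ s₁ (f x d₂ s₂) := by
    intro w x d s hK
    rw [SS_swap, SS_split jG fun d₁ s₁ d₂ s₂ _ _ h3 h4 => by
      rw [op_div_zero dv h3 _ h4, smul_zero], map_add, map_smul, Q.cl, mul_comm, ← hg,
      ← hf _ d s hK, map_SS]
    congr 1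
    refine SS_congr fun d₁ s₁ d₂ s₂ e1 e2 => ?_
    split_ifs with h3
    · simp [hΓ0 _ _ h3]
    rcases cs hK e1 e2 with ⟨hP, hK₂⟩ | ⟨k1, k2, k3⟩
    · rw [map_smul, hf _ _ _ hK₂, hΓ _ _ _ hP h3]
    · rw [hc0 _ _ _ k1, hf0 _ _ _ fun h => k1.ne h.1, Q.op_zero]
      simp
  have E1 : ∀ x ∈ M, ∀ d s, K d s →
      W'.mkQ (SS d s fun d₁ s₁ d₂ s₂ => (n : k) • Q.op d₂ (c d₁ s₁ x ::ₘ h jG ::ₘ s₂)) =
      W'.mkQ (SS d s fun d₁ s₁ d₂ s₂ => (n : k) • c d₂ s₂ (Q.op d₁ (x ::ₘ h jG ::ₘ s₁))) := by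
    intro x hx d s hK
    have e1 := congrArg W'.mkQ (wd Q d s x (h jG) (h jA))
    rw [SS₂ d s hK _ (hy.hA jG) _ (hy.hA jA) x hx, SS₂ d s hK _ (hy.hA jA) _ (hy.hA jG) x hx] at e1
    have e2 : SS d s (fun d₁ s₁ d₂ s₂ => Q.op d₂ (C d₁ (h jG ::ₘ s₁) x ::ₘ h jA ::ₘ s₂)) =
        h jA * C d (h jG ::ₘ s) x := by
      rw [SS_right, Q.cl, mul_comm]
      intro d₁ s₁ d₂ s₂ h1 h2 h3
      rcases cs hK ((add_comm _ _).trans h1) ((add_comm _ _).trans h2) with ⟨hP, -⟩ | ⟨k1, -, -⟩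
      · exact op_div_zero dv hP.1 _ h3
      · rw [ih _ _ _ k1.ne, Q.op_zero]
    have e3 : SS d s (fun d₁ s₁ d₂ s₂ =>
        C d₂ (h jG ::ₘ s₂) (Q.op d₁ (x ::ₘ h jA ::ₘ s₁))) = 0 := by
      refine SS_eq_zero fun d₁ s₁ d₂ s₂ h1 h2 => ?_
      rcases cs hK h1 h2 with ⟨hP, -⟩ | ⟨k1, -, -⟩
      · by_cases h3 : d₁ ≠ 0 ∨ s₁ ≠ 0
        · rw [op_div_zero dv hP.1 _ h3, map_zero]
        · push Not at h3
          rw [h3.1, h3.2, Q.cl, mul_comm, D_mul_Me hy.De hx, map_zero]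
      · exact ih _ _ _ k1.ne
    simp only [hc, Q.smul] at e1
    rw [e2, e3, map_zero, zero_add, hπ (W_D (ht d _ hK.1 hK.2.1 (hK.2.2.cons (hy.hA jG))
      Multiset.cons_ne_zero x hx)), add_zero] at e1
    exact e1.symm
  let R : (ι →₀ ℕ) → Multiset H → H ⧸ W' := fun d s => if K d s then W'.mkQ (SS d s
    fun d₁ s₁ d₂ s₂ => if d₁ jG = 0 then 0 else
      C d₂ (Q.op d₁ (h jG ::ₘ h jG ::ₘ s₁) ::ₘ s₂) e) else 0
  have key := core (k := k) jG K P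
    (fun d₁ s₁ d₂ s₂ h1 h2 => ⟨by rw [Finsupp.add_apply, h1.1, h2.1, zero_add],
      by rw [Finsupp.add_apply, h1.2.1, h2.2.1], h1.2.2.add h2.2.2⟩)
    g Γ (f e) (f (h jG * e)) R p r y τ (hf0 _) (hf0 _)
    (fun d s h => (hyt0 d s fun h' => h h'.1).1) hΓ0
    (fun d s h => (hpr0 d s fun h' => h'.2 h).1) (fun d s h => (hpr0 d s fun h' => h'.2 h).2)
    (fun d s h => (hyt0 d s fun h' => h'.2 h).1) (fun d s h => (hyt0 d s fun h' => h'.2 h).2)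
    ?_ ?_ ?_ ?_ ?_ ?_ g₀ (hyd d₀ 0 rfl rfl)
  · intro d s hK
    obtain ⟨k1, k2⟩ := key d s
    rw [hf _ _ _ hK] at k1 k2
    exact ⟨(Submodule.Quotient.mk_eq_zero _).1 k1, (Submodule.Quotient.mk_eq_zero _).1 k2⟩
  · intro d s
    by_cases hK : K d s
    · rw [hf _ _ _ hK, hg, hg, ← mul_assoc, hy.GG, mul_comm (h jS), mul_assoc]
      exact hπ (kG (W_l (hcW _ _ hK e m₁)))
    · rw [hf0 _ _ _ hK, map_zero, map_zero]
  · intro d s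
    by_cases hK : K d s
    swap
    · simp only [R, if_neg hK]
      exact zero_mem _
    simp only [R, if_pos hK]
    rw [map_SS]
    refine SS_mem fun d₁ s₁ d₂ s₂ h1 h2 => ?_
    split_ifs with h3
    · rw [map_zero]
      exact zero_mem _
    have hJ : Q.op d₁ (h jG ::ₘ h jG ::ₘ s₁) ∈ A :=
      hy.opA _ _ (((hK.2.2.left h2).cons (hy.hA jG)).cons (hy.hA jG))
        (two_le_card _ Multiset.cons_ne_zero)
    rcases cs hK h1 h2 with ⟨-, hK₂⟩ | ⟨k1, -, -⟩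
    · refine Submodule.subset_span ⟨d₂, Q.op d₁ (h jG ::ₘ h jG ::ₘ s₁) ::ₘ s₂, ?_, ?_⟩
      · have := ad jG h1
        omega
      · rw [hf _ _ _ ⟨hK₂.1, hK₂.2.1, hK₂.2.2.cons hJ⟩, hcl _ _ _ hK₂.1 Multiset.cons_ne_zero]
    · rw [ih _ _ _ k1.ne, map_zero]
      exact zero_mem _
  · intro d s hK
    have e1 := E1 e m₁ d s hK
    rw [L1 (fun _ => n) e p r hpr hpr0 d s hK, L2 (fun _ => n) e d s hK, ← smul_SS, ← smul_SS,
      ← smul_add, ← smul_add] at e1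
    exact smul_right_injective _ hnk e1
  · intro d s hK
    have e1 := E1 _ m₂ d s hK
    rw [L1 (fun _ => n) _ y τ hyt hyt0 d s hK, L2 (fun _ => n) _ d s hK, ← smul_SS, ← smul_SS,
      ← smul_add, ← smul_add, hf (h jG * (h jG * e)) _ _ hK, ← mul_assoc, hy.GG, mul_assoc,
      hcl' _ _ _ hK.2.1, hπ (W_l (hcW _ _ hK _ m₂)), zero_add] at e1
    exact smul_right_injective _ hnk e1
  · intro d s hK
    have le : ∀ {d₁ d₂ : ι →₀ ℕ}, d₁ + d₂ = d → d₂ jA ≤ n := fun h1 => by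
      have := ad jA h1
      have := hK.1
      omega
    have e0 := wd Q d s (h jG) e (h jG)
    simp only [Multiset.cons_swap (h jG) e, Multiset.cons_swap _ e] at e0
    have e1 := congrArg W'.mkQ e0.symm
    have e4 : W'.mkQ (SS d s fun d₁ s₁ d₂ s₂ =>
        Q.op d₂ (e ::ₘ Q.op d₁ (h jG ::ₘ h jG ::ₘ s₁) ::ₘ s₂)) = W'.mkQ (SS d s fun d₁ s₁ d₂ s₂ =>
        C d₂ (Q.op d₁ (h jG ::ₘ h jG ::ₘ s₁) ::ₘ s₂) e) := by
      rw [map_SS, map_SS]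
      refine SS_congr fun d₁ s₁ d₂ s₂ h1 h2 => ?_
      rcases cs hK h1 h2 with ⟨-, hK₂⟩ | ⟨k1, k2, k3⟩
      · rw [hC _ _ _ hK₂.1]
      · rw [ih _ _ _ k1.ne, map_zero]
        exact hπ (Submodule.mem_sup_left (ihM _ _ k1 k2 (k3.cons (hy.opA _ _
          (((hK.2.2.left h2).cons (hy.hA jG)).cons (hy.hA jG))
          (two_le_card _ Multiset.cons_ne_zero))) Multiset.cons_ne_zero e m₁))
    have e2 : C d (Q.op 0 (h jG ::ₘ h jG ::ₘ 0) ::ₘ s) e = h jS * C d (h jG ::ₘ s) e := by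
      rw [Q.cl, hy.GG, hC _ _ _ hK.1, hC _ _ _ hK.1, Multiset.cons_swap,
        op_lin dv hK.2.1 _ Multiset.cons_ne_zero, Multiset.cons_swap]
    rw [e4, SS₂ d s hK _ (hy.hA jG) _ (hy.hA jG) e m₁,
      SS_split jG fun d₁ s₁ d₂ s₂ _ _ h3 h4 => by
        rw [op_div_zero dv h3 _ h4]
        by_cases h5 : d₂ jA = n
        · rw [hC _ _ _ h5, Multiset.cons_swap, Q.op_zero]
        · exact ih _ _ _ h5,
      map_add, e2, hπ (W_l (ht d _ hK.1 hK.2.1 (hK.2.2.cons (hy.hA jG))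
        Multiset.cons_ne_zero e m₁)), zero_add,
      SS_congr (F := fun d₁ s₁ d₂ s₂ => C d₂ (h jG ::ₘ s₂) (Q.op d₁ (e ::ₘ h jG ::ₘ s₁)))
        fun d₁ s₁ d₂ s₂ h1 _ => hcG d₂ s₂ _ (le h1),
      L1 (fun d => d jG) e p r hpr hpr0 d s hK,
      SS_congr (F := fun d₁ s₁ d₂ s₂ => Q.op d₂ (C d₁ (h jG ::ₘ s₁) e ::ₘ h jG ::ₘ s₂))
        (G := fun d₁ s₁ d₂ s₂ => (d₁ jG : k) • Q.op d₂ (c d₁ s₁ e ::ₘ h jG ::ₘ s₂))
        fun d₁ s₁ d₂ s₂ h1 _ => by rw [hcG d₁ s₁ _ (le ((add_comm _ _).trans h1)), Q.smul],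
      L2 (fun d => d jG) e d s hK] at e1
    simp only [R, if_pos hK]
    exact e1
  · intro d s h0
    by_cases hK : K d s
    · have := hy.fin d _ h0 hK.2.1 (hK.2.2.cons (hy.hA jA)) Multiset.cons_ne_zero
      rw [← hC _ _ _ hK.1, hc] at this
      rw [hf _ _ _ hK]
      exact hπ (Submodule.mem_sup_left ((Submodule.smul_mem_iff _ hnk).1 this))
    · exact hf0 _ _ _ hK

/-- **(GC)**, invariance form -/
theorem HypI.keeps (hy : HypI Q A h jA jG jS e) (d : ι →₀ ℕ) (l : Multiset H) (hS : d jS = 0)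
    (hl : In A l) (hl0 : l ≠ 0) :
    ∀ x ∈ Me k (h jS) (h jG) e, Q.op d (x ::ₘ l) ∈ Me k (h jS) (h jG) e := by
  induction hn : d jA using Nat.strong_induction_on generalizing d l with
  | _ n ih =>
  rcases eq_or_ne n 0 with rfl | h0
  · exact Me_le_comap (Q.opl d l) (fun x => op_lin hy.dv hS x hl0) (fun x hx => lam_mul_Me hx)
      (hy.keep d l hn hS hl hl0).1 (hy.keep d l hn hS hl hl0).2
  obtain ⟨t₀, ht₀⟩ := Wf_bot (k := k) hy.nilD hy.nilS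
  have : ∀ t, ∀ (d : ι →₀ ℕ) l, d jA = n → d jS = 0 → In A l → l ≠ 0 →
      ∀ x ∈ Me k (h jS) (h jG) e,
        Q.op d (x ::ₘ l) ∈ Me k (h jS) (h jG) e ⊔ Wf k (h jA) (h jS) t := fun t => by
    induction t with
    | zero => exact fun _ _ _ _ _ _ _ _ => Submodule.mem_sup_right trivial
    | succ t iht => exact stepI hy h0 (fun d l a b c d' => ih _ a d l b c d' rfl) t iht
  intro x hx
  obtain ⟨a, ha, b, hb, e1⟩ := Submodule.mem_sup.1 (this t₀ d l hn hS hl hl0 x hx)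
  rwa [← e1, ht₀ b hb, add_zero]

/-- **(GC)** with the hypotheses `vert` (linearity of the vertical operations) and `kill` -/
theorem gc_inv (dv : ∀ j, Q.IsDiv (h j) fun d => (d j : k)) (hA : ∀ j, h j ∈ A) (h1 : (1 : H) ∈ A)
    (opA : ∀ d l, In A l → 2 ≤ Multiset.card l → Q.op d l ∈ A)
    (nilS : IsNilpotent (h jS)) (nilD : IsNilpotent (h jA)) (GG : h jG * h jG = h jS * h jG)
    (De : h jA * e = 0)
    (vert : ∀ (d : ι →₀ ℕ) l, d jA = 0 → d jS = 0 → In A l → l ≠ 0 → ∀ x ∈ A,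
      Q.op d ((e * x) ::ₘ l) = e * Q.op d (x ::ₘ l))
    (kill : ∀ a ∈ A, e * a ∈ Me k (h jS) (h jG) e)
    (num : ∃ d : ι →₀ ℕ, d jA = 0 ∧ d jS = 0 ∧ d jG = 1 ∧ ∃ y t : k, y ≠ 0 ∧
      ∃ z ∈ Me k (h jS) (h jG) e,
        Q.op d ((h jG * e) ::ₘ h jG ::ₘ 0) = y • e + t • (h jG * e) + h jS * z)
    (fin : ∀ (d : ι →₀ ℕ) l, d jG = 0 → d jS = 0 → In A l → l ≠ 0 →
      Q.op d ((h jG * e) ::ₘ l) ∈ Me k (h jS) (h jG) e)
    (d : ι →₀ ℕ) (l : Multiset H) (hS : d jS = 0) (hl : In A l) (hl0 : l ≠ 0) :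
    ∀ x ∈ Me k (h jS) (h jG) e, Q.op d (x ::ₘ l) ∈ Me k (h jS) (h jG) e := by
  refine HypI.keeps ⟨dv, hA, opA, nilD, nilS, GG, De, fun d l a b c c' => ⟨?_, ?_⟩, num, fin⟩
    d l hS hl hl0
  · have := vert d l a b c c' 1 h1
    rw [mul_one] at this
    rw [this]
    exact kill _ (opA _ _ (c.cons h1) (two_le_card _ c'))
  · rw [mul_comm, vert d l a b c c' _ (hA jG)]
    exact kill _ (opA _ _ (c.cons (hA jG)) (two_le_card _ c'))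

end Crest.Agent.X262.Gc84
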