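import Crest.Agent.X262.Gc84.Bas

/-!
# Row 262, road B (helper84): the abstract theorem (GC)
-/

set_option autoImplicit false

namespace Crest.Agent.X262.Gc84

open Crest.Agent.X262.Ult

variable {k : Type*} [Field k] [CharZero k] {ι : Type} [DecidableEq ι] {H : Type*} [CommRing H]
  [Algebra k H] {Q : Hyc k ι H} {β : H →ₗ[k] H →ₗ[k] k} {A : Submodule k H} {h : ι → H}
  {jA jG jS : ι} {E : Set H} {u u' : H →ₗ[k] H}

omit [CharZero k] in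
theorem D_mul_MM (hy : Hyp Q β A h jA jG jS E u u') {x : H} (hx : x ∈ MM k (h jS) (h jG) E) :
    h jA * x = 0 := by
  have : MM k (h jS) (h jG) E ≤ (⊥ : Submodule k H).comap (LinearMap.mulLeft k (h jA)) := by
    refine iSup₂_le fun e he => Me_le_comap _ (fun x => ?_) (fun x hx => ?_) ?_ ?_
    · exact mul_left_comm _ _ _
    · rw [(Submodule.mem_bot k).1 hx, mul_zero]
      exact zero_mem _
    · exact hy.DE e he
    · change h jA * (h jG * e) = 0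
      rw [mul_left_comm, hy.DE e he, mul_zero]
  exact this hx

/-- one step in the `(D, λ)`-adic filtration -/
theorem step (hy : Hyp Q β A h jA jG jS E u u') (v : H →ₗ[k] H) {n : ℕ} (hn : n ≠ 0)
    (ih : ∀ (d : ι →₀ ℕ) l, d jA < n → d jS = 0 → In A l → l ≠ 0 → ∀ x, C Q v d l x = 0)
    (hfin : ∀ e ∈ E, ∀ (d : ι →₀ ℕ) l, d jG = 0 → d jS = 0 → In A l → l ≠ 0 →
      C Q v d l (h jG * e) = 0) (t : ℕ)
    (ht : ∀ (d : ι →₀ ℕ) l, d jA = n → d jS = 0 → In A l → l ≠ 0 →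
      ∀ x ∈ MM k (h jS) (h jG) E, C Q v d l x ∈ Wf k (h jA) (h jS) t)
    (d : ι →₀ ℕ) (l : Multiset H) (hd : d jA = n) (hS : d jS = 0) (hl : In A l) (hl0 : l ≠ 0) :
    ∀ x ∈ MM k (h jS) (h jG) E, C Q v d l x ∈ Wf k (h jA) (h jS) (t + 1) := by
  classical
  have dv := hy.dv
  have hnk : (n : k) ≠ 0 := Nat.cast_ne_zero.2 hn
  have ad : ∀ {d₁ d₂ d : ι →₀ ℕ} (j : ι), d₁ + d₂ = d → d₁ j + d₂ j = d j := fun j h => by
    rw [← h, Finsupp.add_apply]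
  let K : (ι →₀ ℕ) → Multiset H → Prop := fun d s => d jA = n ∧ d jS = 0 ∧ In A s
  let P : (ι →₀ ℕ) → Multiset H → Prop := fun d s => d jA = 0 ∧ d jS = 0 ∧ In A s
  obtain ⟨c, hc⟩ : ∃ c : (ι →₀ ℕ) → Multiset H → H →ₗ[k] H,
      ∀ d s x, C Q v d (h jA ::ₘ s) x = (n : k) • c d s x :=
    ⟨fun d s => (n : k)⁻¹ • C Q v d (h jA ::ₘ s), fun d s x => by
      rw [LinearMap.smul_apply, smul_inv_smul₀ hnk]⟩
  have hcl : ∀ (d : ι →₀ ℕ) l x, d jA = n → l ≠ 0 → C Q v d l x = c d l x := fun d l x h1 h2 => by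
    have := hc d l x
    rw [C_div dv v jA d h2, h1] at this
    exact smul_right_injective H hnk this
  have hc0 : ∀ (d : ι →₀ ℕ) s x, d jA < n → d jS = 0 → In A s → c d s x = 0 :=
    fun d s x h1 h2 h3 => by
      have := hc d s x
      rw [ih d _ h1 h2 (h3.cons (hy.hA jA)) Multiset.cons_ne_zero] at this
      exact (smul_eq_zero.1 this.symm).resolve_left hnk
  have hcW : ∀ d s, K d s → ∀ x ∈ MM k (h jS) (h jG) E, c d s x ∈ Wf k (h jA) (h jS) t :=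
    fun d s hK x hx => by
      have := ht d _ hK.1 hK.2.1 (hK.2.2.cons (hy.hA jA)) Multiset.cons_ne_zero x hx
      rw [hc] at this
      exact (Submodule.smul_mem_iff _ hnk).1 this
  have hvl : ∀ x, v (h jS * x) = h jS * v x := fun x => by
    have := ih 0 (h jS ::ₘ 0) (Nat.pos_of_ne_zero hn) rfl (In.zero.cons (hy.hA jS))
      Multiset.cons_ne_zero x
    rw [C_apply, Q.cl, Q.cl, sub_eq_zero] at this
    rw [mul_comm, this, mul_comm]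
  have hCl : ∀ (d : ι →₀ ℕ) l x, d jS = 0 → l ≠ 0 → C Q v d l (h jS * x) = h jS * C Q v d l x :=
    fun d l x h1 h2 => by
      rw [C_apply, C_apply, hvl, op_lin dv h1 _ h2, op_lin dv h1 _ h2, hvl, mul_sub]
  have hcl' : ∀ (d : ι →₀ ℕ) s x, d jS = 0 → c d s (h jS * x) = h jS * c d s x :=
    fun d s x h1 => by
      refine smul_right_injective H hnk ?_
      change (n : k) • _ = (n : k) • _
      rw [← hc, hCl d _ x h1 Multiset.cons_ne_zero, hc, mul_smul_comm]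
  have hcG : ∀ (d : ι →₀ ℕ) s x, d jA ≤ n → d jS = 0 → In A s →
      C Q v d (h jG ::ₘ s) x = (d jG : k) • c d s x := fun d s x h1 h2 h3 => by
    rcases h1.lt_or_eq with h1 | h1
    · rw [ih d _ h1 h2 (h3.cons (hy.hA jG)) Multiset.cons_ne_zero, hc0 d s x h1 h2 h3, smul_zero]
    · refine smul_right_injective H hnk ?_
      change (n : k) • _ = (n : k) • _
      rw [smul_comm, ← hc, ← C_div dv v jG d Multiset.cons_ne_zero, Multiset.cons_swap,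
        C_div dv v jA d Multiset.cons_ne_zero, h1]
  set W' := Wf k (h jA) (h jS) (t + 1) with hW'
  have kT : ∀ d s, P d s → W' ≤ W'.comap (Q.opl d (h jG ::ₘ s)) := fun d s hP =>
    Wf_keep _ (fun x => op_lin dv hP.1 x Multiset.cons_ne_zero)
      (fun x => op_lin dv hP.2.1 x Multiset.cons_ne_zero) _
  have kM : ∀ a : H, W' ≤ W'.comap (LinearMap.mulLeft k a) := fun a =>
    Wf_keep _ (fun x => mul_left_comm _ _ _) (fun x => mul_left_comm _ _ _) _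
  have hπ : ∀ {x}, x ∈ W' → W'.mkQ x = 0 := fun hx => (Submodule.Quotient.mk_eq_zero _).2 hx
  suffices main : ∀ e ∈ E, ∀ d s, K d s → c d s e ∈ W' ∧ c d s (h jG * e) ∈ W' by
    intro x hx
    rw [hcl d l x hd hl0]
    have : MM k (h jS) (h jG) E ≤ W'.comap (c d l) := iSup₂_le fun e he =>
      Me_le_comap _ (fun x => hcl' d l x hS) (fun x hx => kM _ hx)
        (main e he d l ⟨hd, hS, hl⟩).1 (main e he d l ⟨hd, hS, hl⟩).2
    exact this hx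
  intro e he
  have m₁ : e ∈ MM k (h jS) (h jG) E := Me_le he (mem_Me₁ _ _ _)
  have m₂ : h jG * e ∈ MM k (h jS) (h jG) E := Me_le he (mem_Me₂ _ _ _)
  obtain ⟨d₀, a₀, s₀, g₀, y₀, t₀, hy₀, z₀, hz₀, e₀⟩ := hy.num e he
  have ex1 : ∀ d s, ∃ p r : k, (P d s ∧ d jG ≠ 0 → ∃ z ∈ Me k (h jS) (h jG) e,
      Q.op d (e ::ₘ h jG ::ₘ s) = p • e + r • (h jG * e) + h jS * z) ∧
      (¬(P d s ∧ d jG ≠ 0) → p = 0 ∧ r = 0) := fun d s => by
    by_cases hP : P d s ∧ d jG ≠ 0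
    · obtain ⟨p, r, z, hz, e1⟩ := Me_dec (hy.keep e he d s hP.1.1 hP.1.2.1 hP.1.2.2).1
      exact ⟨p, r, fun _ => ⟨z, hz, e1⟩, fun h => absurd hP h⟩
    · exact ⟨0, 0, fun h => absurd h hP, fun _ => ⟨rfl, rfl⟩⟩
  have ex2 : ∀ d s, ∃ p r : k, (P d s ∧ d jG ≠ 0 → ∃ z ∈ Me k (h jS) (h jG) e,
      Q.op d ((h jG * e) ::ₘ h jG ::ₘ s) = p • e + r • (h jG * e) + h jS * z) ∧
      (¬(P d s ∧ d jG ≠ 0) → p = 0 ∧ r = 0) ∧ (d = d₀ → s = 0 → p ≠ 0) := fun d s => by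
    by_cases h0 : d = d₀ ∧ s = 0
    · obtain ⟨rfl, rfl⟩ := h0
      exact ⟨y₀, t₀, fun _ => ⟨z₀, hz₀, e₀⟩,
        fun h => absurd ⟨⟨a₀, s₀, In.zero⟩, by omega⟩ h, fun _ _ => hy₀⟩
    by_cases hP : P d s ∧ d jG ≠ 0
    · obtain ⟨p, r, z, hz, e1⟩ := Me_dec (hy.keep e he d s hP.1.1 hP.1.2.1 hP.1.2.2).2
      exact ⟨p, r, fun _ => ⟨z, hz, e1⟩, fun h => absurd hP h, fun h1 h2 => absurd ⟨h1, h2⟩ h0⟩
    · exact ⟨0, 0, fun h => absurd h hP, fun _ => ⟨rfl, rfl⟩, fun h1 h2 => absurd ⟨h1, h2⟩ h0⟩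
  choose p r hpr hpr0 using ex1
  choose y τ hyt hyt0 hyd using ex2
  let g : H ⧸ W' →ₗ[k] H ⧸ W' := W'.mapQ W' _ (kM (h jG))
  have hg : ∀ x, g (W'.mkQ x) = W'.mkQ (h jG * x) := fun x => rfl
  obtain ⟨Γ, hΓ, hΓ0⟩ : ∃ Γ : (ι →₀ ℕ) → Multiset H → H ⧸ W' →ₗ[k] H ⧸ W',
      (∀ d s x, P d s → d jG ≠ 0 → Γ d s (W'.mkQ x) = W'.mkQ (Q.op d (x ::ₘ h jG ::ₘ s))) ∧
      ∀ d s, d jG = 0 → Γ d s = 0 :=
    ⟨fun d s => if hP : P d s ∧ d jG ≠ 0 then W'.mapQ W' _ (kT d s hP.1) else 0,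
      fun d s x h1 h2 => by
        beta_reduce
        rw [dif_pos ⟨h1, h2⟩]
        rfl,
      fun d s h1 => dif_neg fun h => h.2 h1⟩
  obtain ⟨f, hf, hf0⟩ : ∃ f : H → (ι →₀ ℕ) → Multiset H → H ⧸ W',
      (∀ x d s, K d s → f x d s = W'.mkQ (c d s x)) ∧ ∀ x d s, ¬K d s → f x d s = 0 :=
    ⟨fun x d s => if K d s then W'.mkQ (c d s x) else 0, fun x d s h => if_pos h,
      fun x d s h => if_neg h⟩
  -- the two cases for a splitting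
  have cs : ∀ {d s d₁ s₁ d₂ s₂}, K d s → d₁ + d₂ = d → s₁ + s₂ = s →
      (P d₁ s₁ ∧ K d₂ s₂) ∨ (d₂ jA < n ∧ d₂ jS = 0 ∧ In A s₂) := by
    intro d s d₁ s₁ d₂ s₂ hK h1 h2
    have b1 := ad jA h1
    have b2 := ad jS h1
    obtain ⟨k1, k2, k3⟩ := hK
    by_cases h3 : d₂ jA = n
    · exact Or.inl ⟨⟨by omega, by omega, k3.left h2⟩, h3, by omega, k3.right h2⟩
    · exact Or.inr ⟨by omega, by omega, k3.right h2⟩
  have L1 : ∀ (w : (ι →₀ ℕ) → k) (x : H) (a b : (ι →₀ ℕ) → Multiset H → k),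
      (∀ d s, P d s ∧ d jG ≠ 0 → ∃ z ∈ Me k (h jS) (h jG) e,
        Q.op d (x ::ₘ h jG ::ₘ s) = a d s • e + b d s • (h jG * e) + h jS * z) →
      (∀ d s, ¬(P d s ∧ d jG ≠ 0) → a d s = 0 ∧ b d s = 0) → ∀ d s, K d s →
      W'.mkQ (SS d s fun d₁ s₁ d₂ s₂ => w d₂ • c d₂ s₂ (Q.op d₁ (x ::ₘ h jG ::ₘ s₁))) =
        w d • f (h jG * x) d s + SS d s fun d₁ s₁ d₂ s₂ =>
          w d₂ • (a d₁ s₁ • f e d₂ s₂ + b d₁ s₁ • f (h jG * e) d₂ s₂) := by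
    intro w x a b h1 h2 d s hK
    rw [SS_split jG fun d₁ s₁ d₂ s₂ _ _ h3 h4 => by
      rw [op_div_zero dv h3 x h4, map_zero, smul_zero], map_add, map_smul, Q.cl, mul_comm x,
      ← hf _ d s hK, map_SS]
    congr 1
    refine SS_congr fun d₁ s₁ d₂ s₂ e1 e2 => ?_
    split_ifs with h3
    · obtain ⟨ha, hb⟩ := h2 d₁ s₁ fun h => h.2 h3
      simp [ha, hb]
    rcases cs hK e1 e2 with ⟨hP, hK₂⟩ | ⟨k1, k2, k3⟩
    · obtain ⟨z, hz, e3⟩ := h1 d₁ s₁ ⟨hP, h3⟩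
      rw [e3, map_smul, map_add, map_add, map_add, map_add, hcl' _ _ _ hK₂.2.1,
        hπ (Wf_lam (hcW _ _ hK₂ z (Me_le he hz))), add_zero, map_smul, map_smul, map_smul,
        map_smul, hf _ _ _ hK₂, hf _ _ _ hK₂]
    · have hK₂ : ¬K d₂ s₂ := fun h => k1.ne h.1
      rw [hc0 _ _ _ k1 k2 k3, hf0 _ _ _ hK₂, hf0 _ _ _ hK₂]
      simp
  have L2 : ∀ (w : (ι →₀ ℕ) → k) (x : H) d s, K d s →
      W'.mkQ (SS d s fun d₁ s₁ d₂ s₂ => w d₁ • Q.op d₂ (c d₁ s₁ x ::ₘ h jG ::ₘ s₂)) =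
        w d • g (f x d s) + SS d s fun d₁ s₁ d₂ s₂ => w d₂ • Γ d₁ s₁ (f x d₂ s₂) := by
    intro w x d s hK
    rw [SS_swap, SS_split jG fun d₁ s₁ d₂ s₂ _ _ h3 h4 => by
      rw [op_div_zero dv h3 _ h4, smul_zero], map_add, map_smul, Q.cl, mul_comm, ← hg,
      ← hf _ d s hK, map_SS]
    congr 1
    refine SS_congr fun d₁ s₁ d₂ s₂ e1 e2 => ?_
    split_ifs with h3
    · simp [hΓ0 _ _ h3]
    rcases cs hK e1 e2 with ⟨hP, hK₂⟩ | ⟨k1, k2, k3⟩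
    · rw [map_smul, hf _ _ _ hK₂, hΓ _ _ _ hP h3]
    · rw [hc0 _ _ _ k1 k2 k3, hf0 _ _ _ fun h => k1.ne h.1, Q.op_zero]
      simp
  have E1 : ∀ x ∈ MM k (h jS) (h jG) E, ∀ d s, K d s →
      W'.mkQ (SS d s fun d₁ s₁ d₂ s₂ => (n : k) • Q.op d₂ (c d₁ s₁ x ::ₘ h jG ::ₘ s₂)) =
      W'.mkQ (SS d s fun d₁ s₁ d₂ s₂ => (n : k) • c d₂ s₂ (Q.op d₁ (x ::ₘ h jG ::ₘ s₁))) := by
    intro x hx d s hK
    have e1 := C_sym Q v d s (h jG) (h jA) x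
    have e2 : SS d s (fun d₁ s₁ d₂ s₂ => Q.op d₂ (C Q v d₁ (h jG ::ₘ s₁) x ::ₘ h jA ::ₘ s₂)) =
        h jA * C Q v d (h jG ::ₘ s) x := by
      rw [SS_right, Q.cl, mul_comm]
      intro d₁ s₁ d₂ s₂ h1 h2 h3
      rcases cs hK ((add_comm _ _).trans h1) ((add_comm _ _).trans h2) with ⟨hP, -⟩ | ⟨k1, k2, k3⟩
      · exact op_div_zero dv hP.1 _ h3
      · rw [ih _ _ k1 k2 (k3.cons (hy.hA jG)) Multiset.cons_ne_zero, Q.op_zero]
    have e3 : SS d s (fun d₁ s₁ d₂ s₂ =>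
        C Q v d₂ (h jG ::ₘ s₂) (Q.op d₁ (x ::ₘ h jA ::ₘ s₁))) = 0 := by
      refine SS_eq_zero fun d₁ s₁ d₂ s₂ h1 h2 => ?_
      rcases cs hK h1 h2 with ⟨hP, -⟩ | ⟨k1, k2, k3⟩
      · by_cases h3 : d₁ ≠ 0 ∨ s₁ ≠ 0
        · rw [op_div_zero dv hP.1 _ h3, map_zero]
        · push Not at h3
          rw [h3.1, h3.2, Q.cl, mul_comm, D_mul_MM hy hx, map_zero]
      · exact ih _ _ k1 k2 (k3.cons (hy.hA jG)) Multiset.cons_ne_zero _
    simp only [hc, Q.smul] at e1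
    rw [e2, e3, zero_add] at e1
    rw [← e1, map_add, hπ (Wf_D (ht d _ hK.1 hK.2.1 (hK.2.2.cons (hy.hA jG))
      Multiset.cons_ne_zero x hx)), add_zero]
  let R : (ι →₀ ℕ) → Multiset H → H ⧸ W' := fun d s => if K d s then W'.mkQ (SS d s
    fun d₁ s₁ d₂ s₂ => if d₁ jG = 0 then 0 else
      C Q v d₂ (Q.op d₁ (h jG ::ₘ h jG ::ₘ s₁) ::ₘ s₂) e) else 0
  have key := core (k := k) jG K P
    (fun d₁ s₁ d₂ s₂ h1 h2 => ⟨by rw [Finsupp.add_apply, h1.1, h2.1, zero_add],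
      by rw [Finsupp.add_apply, h1.2.1, h2.2.1], h1.2.2.add h2.2.2⟩)
    g Γ (f e) (f (h jG * e)) R p r y τ (hf0 _) (hf0 _)
    (fun d s h => (hyt0 d s fun h' => h h'.1).1) hΓ0
    (fun d s h => (hpr0 d s fun h' => h'.2 h).1) (fun d s h => (hpr0 d s fun h' => h'.2 h).2)
    (fun d s h => (hyt0 d s fun h' => h'.2 h).1) (fun d s h => (hyt0 d s fun h' => h'.2 h).2)
    ?_ ?_ ?_ ?_ ?_ ?_ g₀ (hyd d₀ 0 rfl rfl)
  · intro d s hK
    obtain ⟨k1, k2⟩ := key d s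
    rw [hf _ _ _ hK] at k1 k2
    exact ⟨(Submodule.Quotient.mk_eq_zero _).1 k1, (Submodule.Quotient.mk_eq_zero _).1 k2⟩
  · intro d s
    by_cases hK : K d s
    · rw [hf _ _ _ hK, hg, hg, ← mul_assoc, hy.GG, mul_comm (h jS), mul_assoc]
      exact hπ (kM _ (Wf_lam (hcW _ _ hK e m₁)))
    · rw [hf0 _ _ _ hK, map_zero, map_zero]
  · intro d s
    by_cases hK : K d s
    swap
    · simp only [R, if_neg hK]
      exact zero_mem _
    simp only [R, if_pos hK]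
    rw [map_SS]
    refine SS_mem fun d₁ s₁ d₂ s₂ h1 h2 => ?_
    split_ifs with h3
    · rw [map_zero]
      exact zero_mem _
    have hJ : Q.op d₁ (h jG ::ₘ h jG ::ₘ s₁) ∈ A :=
      hy.opA _ _ (((hK.2.2.left h2).cons (hy.hA jG)).cons (hy.hA jG))
        (two_le_card _ Multiset.cons_ne_zero)
    rcases cs hK h1 h2 with ⟨-, hK₂⟩ | ⟨k1, k2, k3⟩
    · refine Submodule.subset_span ⟨d₂, Q.op d₁ (h jG ::ₘ h jG ::ₘ s₁) ::ₘ s₂, ?_, ?_⟩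
      · have := ad jG h1
        omega
      · rw [hf _ _ _ ⟨hK₂.1, hK₂.2.1, hK₂.2.2.cons hJ⟩, hcl _ _ _ hK₂.1 Multiset.cons_ne_zero]
    · rw [ih _ _ k1 k2 (k3.cons hJ) Multiset.cons_ne_zero, map_zero]
      exact zero_mem _
  · intro d s hK
    have e1 := E1 e m₁ d s hK
    rw [L1 (fun _ => n) e p r hpr hpr0 d s hK, L2 (fun _ => n) e d s hK, ← smul_SS, ← smul_SS,
      ← smul_add, ← smul_add] at e1
    exact smul_right_injective _ hnk e1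
  · intro d s hK
    have e1 := E1 _ m₂ d s hK
    rw [L1 (fun _ => n) _ y τ hyt hyt0 d s hK, L2 (fun _ => n) _ d s hK, ← smul_SS, ← smul_SS,
      ← smul_add, ← smul_add, hf (h jG * (h jG * e)) _ _ hK, ← mul_assoc, hy.GG, mul_assoc,
      hcl' _ _ _ hK.2.1, hπ (Wf_lam (hcW _ _ hK _ m₂)), zero_add] at e1
    exact smul_right_injective _ hnk e1
  · intro d s hK
    have e1 := congrArg W'.mkQ (C_der Q v d s (h jG) (h jG) e)
    have le : ∀ {d₁ s₁ d₂ s₂}, d₁ + d₂ = d → s₁ + s₂ = s → d₂ jA ≤ n ∧ d₂ jS = 0 ∧ In A s₂ :=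
      fun h1 h2 => (cs hK h1 h2).elim (fun h => ⟨h.2.1.le, h.2.2⟩) fun h => ⟨h.1.le, h.2⟩
    have e2 : C Q v d (Q.op 0 (h jG ::ₘ h jG ::ₘ 0) ::ₘ s) e = h jS * C Q v d (h jG ::ₘ s) e := by
      have b : ∀ x, Q.op d (x ::ₘ (h jS * h jG) ::ₘ s) = h jS * Q.op d (x ::ₘ h jG ::ₘ s) :=
        fun x => by
          rw [Multiset.cons_swap, op_lin dv hK.2.1 _ Multiset.cons_ne_zero, Multiset.cons_swap]
      rw [Q.cl, hy.GG, C_apply, C_apply, b, b, hvl, mul_sub]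
    rw [SS_split jG fun d₁ s₁ d₂ s₂ _ _ h3 h4 => by
        rw [op_div_zero dv h3 _ h4, C_apply, Multiset.cons_swap, Q.op_zero, Multiset.cons_swap,
          Q.op_zero, map_zero, sub_zero],
      map_add, map_add, e2, hπ (Wf_lam (ht d _ hK.1 hK.2.1 (hK.2.2.cons (hy.hA jG))
        Multiset.cons_ne_zero e m₁)), zero_add,
      SS_congr fun d₁ s₁ d₂ s₂ h1 h2 => hcG d₂ s₂ _ (le h1 h2).1 (le h1 h2).2.1 (le h1 h2).2.2,
      L1 (fun d => d jG) e p r hpr hpr0 d s hK,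
      SS_congr (F := fun d₁ s₁ d₂ s₂ => Q.op d₂ (C Q v d₁ (h jG ::ₘ s₁) e ::ₘ h jG ::ₘ s₂))
        (G := fun d₁ s₁ d₂ s₂ => (d₁ jG : k) • Q.op d₂ (c d₁ s₁ e ::ₘ h jG ::ₘ s₂))
        fun d₁ s₁ d₂ s₂ h1 h2 => by
          obtain ⟨k1, k2, k3⟩ := le ((add_comm _ _).trans h1) ((add_comm _ _).trans h2)
          rw [hcG d₁ s₁ _ k1 k2 k3, Q.smul],
      L2 (fun d => d jG) e d s hK] at e1
    simp only [R, if_pos hK]
    exact e1
  · intro d s h0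
    by_cases hK : K d s
    · have := hc d s (h jG * e)
      rw [hfin e he d _ h0 hK.2.1 (hK.2.2.cons (hy.hA jA)) Multiset.cons_ne_zero] at this
      rw [hf _ _ _ hK, (smul_eq_zero.1 this.symm).resolve_left hnk, map_zero]
    · exact hf0 _ _ _ hK

omit [CharZero k] in
theorem C_adj (hy : Hyp Q β A h jA jG jS E u u') (d : ι →₀ ℕ) {l : Multiset H} (hl : l ≠ 0)
    (x y : H) : β (C Q u d l x) y = -β x (C Q u' d l y) := by
  rw [C_apply, C_apply, map_sub, LinearMap.sub_apply, map_sub, hy.uadj, hy.adj _ _ _ _ hl,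
    hy.adj _ _ _ _ hl, hy.uadj, neg_sub]

/-- **(GC)** -/
theorem gc (hy : Hyp Q β A h jA jG jS E u u') : Out Q A jS u := by
  suffices H : ∀ n, ∀ (d : ι →₀ ℕ) l, d jA = n → d jS = 0 → In A l → l ≠ 0 →
      ∀ x, C Q u d l x = 0 from fun d l h1 h2 h3 x => cm_iff.2 (H _ d l rfl h1 h2 h3 x)
  intro n
  induction n using Nat.strong_induction_on with
  | _ n ih =>
  intro d l hd hS hl hl0
  rcases eq_or_ne n 0 with rfl | hn
  · exact fun x => cm_iff.1 (hy.vert d l hd hS hl hl0 x)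
  have ih1 : ∀ (d : ι →₀ ℕ) l, d jA < n → d jS = 0 → In A l → l ≠ 0 → ∀ x, C Q u d l x = 0 :=
    fun d l h => ih _ h d l rfl
  have ih2 : ∀ (d : ι →₀ ℕ) l, d jA < n → d jS = 0 → In A l → l ≠ 0 → ∀ x, C Q u' d l x = 0 :=
    fun d l h1 h2 h3 h4 y => hy.nondeg _ fun x => by
      rw [hy.symm, ← neg_eq_zero, ← C_adj hy d h4, ih1 d l h1 h2 h3 h4, map_zero,
        LinearMap.zero_apply]
  obtain ⟨t₀, ht₀⟩ := Wf_bot (k := k) hy.nilD hy.nilS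
  have onM : ∀ v : H →ₗ[k] H,
      (∀ (d : ι →₀ ℕ) l, d jA < n → d jS = 0 → In A l → l ≠ 0 → ∀ x, C Q v d l x = 0) →
      (∀ e ∈ E, ∀ (d : ι →₀ ℕ) l, d jG = 0 → d jS = 0 → In A l → l ≠ 0 →
        Cm Q v d l (h jG * e)) → ∀ x ∈ MM k (h jS) (h jG) E, C Q v d l x = 0 := by
    intro v h1 h2 x hx
    have : ∀ t, ∀ (d : ι →₀ ℕ) l, d jA = n → d jS = 0 → In A l → l ≠ 0 →
        ∀ x ∈ MM k (h jS) (h jG) E, C Q v d l x ∈ Wf k (h jA) (h jS) t := fun t => by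
      induction t with
      | zero => exact fun _ _ _ _ _ _ _ _ => trivial
      | succ t iht =>
        exact step hy v hn h1 (fun e he d l a b c d' => cm_iff.1 (h2 e he d l a b c d')) t iht
    exact ht₀ _ (this t₀ d l hd hS hl hl0 x hx)
  have M1 := onM u ih1 hy.fin
  have M2 := onM u' ih2 hy.fin'
  have kill : ∀ x, (∀ z ∈ MM k (h jS) (h jG) E, β x z = 0) → u' x = 0 := fun x hx =>
    hy.nondeg _ fun y => by rw [hy.symm, ← hy.uadj, hy.symm, hx _ (hy.rng y)]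
  intro x
  obtain ⟨x₁, hx₁, hx₂⟩ := hy.top x
  rw [← add_sub_cancel x₁ x, map_add, M1 x₁ hx₁, zero_add]
  refine hy.nondeg _ fun y => ?_
  obtain ⟨y₁, hy₁, hy₂⟩ := hy.top y
  rw [C_adj hy d hl0, ← add_sub_cancel y₁ y, map_add, M2 y₁ hy₁, zero_add, C_apply, kill _ hy₂,
    Q.op_zero, sub_zero, hx₂ _ (hy.rng' _), neg_zero]

end Crest.Agent.X262.Gc84
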