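import Crest.Agent.X262.Gc84.Inv

/-!
# Row 262, road B (helper84): the body of `Gwb.GcStmt` (use `(gcStmt : Gwb.GcStmt)`)
-/

set_option autoImplicit false

namespace Crest.Agent.X262.Gc84

open Crest.Agent.X262.Ult

theorem gcStmt :
  ∀ {J H : Type} [Fintype J] [DecidableEq J] [CommRing H] [Algebra ℂ H] (Q : Hyc ℂ J H)
    (A : Submodule ℂ H) (h : J → H) (jA jG jS : J) (e : H),
    (∀ j, Q.IsDiv (h j) fun d => (d j : ℂ)) → (∀ j, h j ∈ A) → 1 ∈ A →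
    (∀ d l, In A l → 2 ≤ Multiset.card l → Q.op d l ∈ A) →
    IsNilpotent (h jS) → IsNilpotent (h jA) → h jG * h jG = h jS * h jG → h jA * e = 0 →
    Q.IsLin e (fun d => d jA = 0) → (∀ a ∈ A, e * a ∈ Me ℂ (h jS) (h jG) e) →
    (∃ d : J →₀ ℕ, d jA = 0 ∧ d jS = 0 ∧ d jG = 1 ∧ ∃ y t : ℂ, y ≠ 0 ∧
      ∃ z ∈ Me ℂ (h jS) (h jG) e,
        Q.op d ((h jG * e) ::ₘ h jG ::ₘ 0) = y • e + t • (h jG * e) + h jS * z) →
    (∀ d l, d jS = 0 → d jG = 0 → In A l → l ≠ 0 →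
      Q.op d ((h jG * e) ::ₘ l) ∈ Me ℂ (h jS) (h jG) e) →
    ∀ d l, d jS = 0 → In A l → l ≠ 0 → ∀ x ∈ Me ℂ (h jS) (h jG) e,
      Q.op d (x ::ₘ l) ∈ Me ℂ (h jS) (h jG) e :=
  fun _ _ _ _ _ _ _ dv hA h1 opA nS nD GG De lin kill num fin d l hS hl hl0 =>
    gc_inv dv hA h1 opA nS nD GG De (fun d l a _ _ _ x _ => lin d a x l) kill num
      (fun d l a b c c' => fin d l b a c c') d l hS hl hl0

end Crest.Agent.X262.Gc84
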